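import Mathlib

/-!
A selection rule for coordinatewise decreasing densities on the orthant.

For a decreasing density `f` and `a ∈ (0, 1]` we build weights `T i ∈ [0, 1]`, the `i`-th
one depending only on the first `i + 1` coordinates, with mean `1 - a` given the past,
with `E (T i * w i) = (1 - a ^ 2) * E (w i)`, so that their sum concentrates.
-/

open MeasureTheory Set

namespace Vale.Agent.P254.Sym

/-- A bounded density carried by `[0, R] ^ n`, decreasing in each coordinate. -/
structure DecDensity (n : ℕ) (R : ℝ) (f : (Fin n → ℝ) → ℝ) : Prop where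
  meas : Measurable f
  nonneg : ∀ w, 0 ≤ f w
  bdd : ∃ C, 0 ≤ C ∧ ∀ w, f w ≤ C
  supp : ∀ w, f w ≠ 0 → ∀ i, 0 ≤ w i ∧ w i ≤ R
  anti : ∀ v w, (∀ i, 0 ≤ v i) → (∀ i, v i ≤ w i) → f w ≤ f v

variable {n : ℕ} {R : ℝ}

lemma DecDensity.intble {f : (Fin n → ℝ) → ℝ} (hf : DecDensity n R f) {φ : (Fin n → ℝ) → ℝ}
    (hφ : Measurable φ) {M : ℝ} (hM : ∀ w, f w ≠ 0 → |φ w| ≤ M) :
    Integrable (fun w => f w * φ w) := by
  obtain ⟨C, hC0, hC⟩ := hf.bdd
  have h : IntegrableOn (fun w => f w * φ w) (Icc (fun _ => 0) (fun _ => R)) := by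
    refine Measure.integrableOn_of_bounded (M := C * max M 0) isCompact_Icc.measure_lt_top.ne
      (hf.meas.mul hφ).aestronglyMeasurable (Filter.Eventually.of_forall fun w => ?_)
    rw [Real.norm_eq_abs, abs_mul, abs_of_nonneg (hf.nonneg w)]
    rcases eq_or_ne (f w) 0 with h0 | h0
    · rw [h0, zero_mul]; positivity
    · exact mul_le_mul (hC w) ((hM w h0).trans (le_max_left _ _)) (abs_nonneg _) hC0
  refine h.integrable_of_forall_notMem_eq_zero fun w hw => ?_
  by_contra h0
  have := hf.supp w fun h => h0 (by simp [h])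
  exact hw ⟨fun i => (this i).1, fun i => (this i).2⟩

lemma measurable_snoc₂ : Measurable fun q : (Fin n → ℝ) × ℝ => (Fin.snoc q.1 q.2 : Fin (n+1) → ℝ) := by
  refine measurable_pi_lambda _ fun i => ?_
  refine Fin.lastCases ?_ (fun j => ?_) i
  · simpa using measurable_snd
  · simpa [Function.comp_def] using (measurable_pi_apply j).comp measurable_fst

lemma integral_split {g : (Fin (n+1) → ℝ) → ℝ} (hg : Integrable g) :
    ∫ w, g w = ∫ p : Fin n → ℝ, ∫ x : ℝ, g (Fin.snoc p x) := by
  have hmp := (volume_preserving_piFinSuccAbove (fun _ : Fin (n+1) => ℝ) (Fin.last n)).symm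
  rw [← hmp.integral_comp' g]
  have hi : Integrable (fun q => g ((MeasurableEquiv.piFinSuccAbove (fun _ : Fin (n+1) => ℝ)
      (Fin.last n)).symm q)) := (hmp.integrable_comp_emb (MeasurableEquiv.measurableEmbedding _)).2 hg
  rw [Measure.volume_eq_prod] at hi ⊢
  rw [integral_prod_symm _ hi]
  refine integral_congr_ae (Filter.Eventually.of_forall fun p => ?_)
  refine integral_congr_ae (Filter.Eventually.of_forall fun x => ?_)
  simp [MeasurableEquiv.piFinSuccAbove_symm_apply, Fin.insertNthEquiv, Fin.insertNth_last']

/-- The density of all but the last coordinate. -/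
noncomputable def marginal (f : (Fin (n+1) → ℝ) → ℝ) (p : Fin n → ℝ) : ℝ :=
  ∫ x : ℝ, f (Fin.snoc p x)

section step

variable {f : (Fin (n+1) → ℝ) → ℝ}

lemma DecDensity.slice (hf : DecDensity (n+1) R f) (p : Fin n → ℝ) {φ : ℝ → ℝ} (hφ : Measurable φ)
    {M : ℝ} (hM : ∀ x, f (Fin.snoc p x) ≠ 0 → |φ x| ≤ M) :
    Integrable (fun x => f (Fin.snoc p x) * φ x) := by
  obtain ⟨C, hC0, hC⟩ := hf.bdd
  have hm : Measurable fun x : ℝ => f (Fin.snoc p x) :=
    hf.meas.comp (measurable_snoc₂.comp measurable_prodMk_left)
  have h : IntegrableOn (fun x => f (Fin.snoc p x) * φ x) (Icc 0 R) := by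
    refine Measure.integrableOn_of_bounded (M := C * max M 0) isCompact_Icc.measure_lt_top.ne
      (hm.mul hφ).aestronglyMeasurable (Filter.Eventually.of_forall fun x => ?_)
    rw [Real.norm_eq_abs, abs_mul, abs_of_nonneg (hf.nonneg _)]
    rcases eq_or_ne (f (Fin.snoc p x)) 0 with h0 | h0
    · rw [h0, zero_mul]; positivity
    · exact mul_le_mul (hC _) ((hM x h0).trans (le_max_left _ _)) (abs_nonneg _) hC0
  refine h.integrable_of_forall_notMem_eq_zero fun x hx => ?_
  by_contra h0
  have := hf.supp (Fin.snoc p x) (fun h => h0 (by simp [h])) (Fin.last n)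
  exact hx (by simpa using this)

lemma DecDensity.slice_self (hf : DecDensity (n+1) R f) (p : Fin n → ℝ) :
    Integrable fun x => f (Fin.snoc p x) := by
  simpa using hf.slice p (φ := fun _ => 1) measurable_const (M := 1) (by simp)

lemma DecDensity.marginal (hf : DecDensity (n+1) R f) : DecDensity n R (marginal f) where
  meas := by
    have : StronglyMeasurable (Function.uncurry fun (p : Fin n → ℝ) (x : ℝ) => f (Fin.snoc p x)) :=
      (hf.meas.comp measurable_snoc₂).stronglyMeasurable
    exact this.integral_prod_right.measurable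
  nonneg p := integral_nonneg fun x => hf.nonneg _
  bdd := by
    obtain ⟨C, hC0, hC⟩ := hf.bdd
    refine ⟨C * |R|, by positivity, fun p => ?_⟩
    have hsub : ∀ x, f (Fin.snoc p x) ≤ (Icc 0 R).indicator (fun _ => C) x := by
      intro x
      by_cases hx : x ∈ Icc 0 R
      · simpa [hx] using hC _
      · have : f (Fin.snoc p x) = 0 := by
          by_contra h
          exact hx (by simpa using hf.supp _ h (Fin.last n))
        simp [hx, this]
    calc Sym.marginal f p ≤ ∫ x, (Icc 0 R).indicator (fun _ => C) x :=
          integral_mono (hf.slice_self p)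
            ((integrableOn_const isCompact_Icc.measure_lt_top.ne).integrable_indicator
              measurableSet_Icc) hsub
      _ = (volume (Icc 0 R)).toReal * C := by
          rw [integral_indicator_const _ measurableSet_Icc, smul_eq_mul, measureReal_def]
      _ ≤ C * |R| := by
          rw [Real.volume_Icc, mul_comm, ENNReal.toReal_ofReal']
          exact mul_le_mul_of_nonneg_left (max_le (by simpa using le_abs_self R) (abs_nonneg R)) hC0
  supp p hp i := by
    obtain ⟨x, hx⟩ : ∃ x, f (Fin.snoc p x) ≠ 0 := by
      by_contra h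
      push Not at h
      exact hp (by simp [Sym.marginal, h])
    simpa using hf.supp _ hx i.castSucc
  anti v w hv hvw := by
    refine integral_mono (hf.slice_self w) (hf.slice_self v) fun x => ?_
    by_cases h : f (Fin.snoc w x) = 0
    · simpa [h] using hf.nonneg _
    have hx : 0 ≤ x := by simpa using (hf.supp _ h (Fin.last n)).1
    refine hf.anti _ _ (fun i => ?_) (fun i => ?_) <;> refine Fin.lastCases ?_ (fun j => ?_) i
    all_goals simp [hx, hv, hvw]

lemma DecDensity.integral_marginal (hf : DecDensity (n+1) R f) {φ : (Fin n → ℝ) → ℝ}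
    (hφ : Measurable φ) {M : ℝ} (hM : ∀ w, f w ≠ 0 → |φ (Fin.init w)| ≤ M) :
    ∫ w, f w * φ (Fin.init w) = ∫ p, Sym.marginal f p * φ p := by
  rw [integral_split (hf.intble (φ := fun w => φ (Fin.init w))
    (hφ.comp (measurable_pi_lambda _ fun i => measurable_pi_apply _)) hM)]
  refine integral_congr_ae (Filter.Eventually.of_forall fun p => ?_)
  simp only [Fin.init_snoc]
  exact integral_mul_const _ _

lemma DecDensity.scaled_le (hf : DecDensity (n+1) R f) {a : ℝ} (ha : a ∈ Ioc (0:ℝ) 1)
    (p : Fin n → ℝ) (x : ℝ) : f (Fin.snoc p (x / a)) ≤ f (Fin.snoc p x) := by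
  by_cases h : f (Fin.snoc p (x / a)) = 0
  · simpa [h] using hf.nonneg _
  have hs := hf.supp _ h
  have hxa : 0 ≤ x / a := by simpa using (hs (Fin.last n)).1
  have hx : 0 ≤ x := by
    have := mul_nonneg hxa ha.1.le
    rwa [div_mul_cancel₀ _ ha.1.ne'] at this
  refine hf.anti _ _ (fun i => ?_) (fun i => ?_) <;> refine Fin.lastCases ?_ (fun j => ?_) i
  · simpa using hx
  · simpa using (hs j.castSucc).1
  · simpa using le_div_self hx ha.1 ha.2
  · simp

/-- The weight of the last coordinate. -/
noncomputable def lastWeight (f : (Fin (n+1) → ℝ) → ℝ) (a : ℝ) (w : Fin (n+1) → ℝ) : ℝ :=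
  1 - f (Fin.snoc (Fin.init w) (w (Fin.last n) / a)) / f w

lemma lastWeight_mem (hf : DecDensity (n+1) R f) {a : ℝ} (ha : a ∈ Ioc (0:ℝ) 1)
    (w : Fin (n+1) → ℝ) : 0 ≤ lastWeight f a w ∧ lastWeight f a w ≤ 1 := by
  have h1 := hf.scaled_le ha (Fin.init w) (w (Fin.last n))
  rw [Fin.snoc_init_self] at h1
  have h0 := hf.nonneg (Fin.snoc (Fin.init w) (w (Fin.last n) / a))
  refine ⟨sub_nonneg.2 (div_le_one_of_le₀ h1 (hf.nonneg w)), sub_le_self _ ?_⟩
  exact div_nonneg h0 (hf.nonneg w)

lemma mul_lastWeight (hf : DecDensity (n+1) R f) {a : ℝ} (ha : a ∈ Ioc (0:ℝ) 1)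
    (p : Fin n → ℝ) (x : ℝ) :
    f (Fin.snoc p x) * lastWeight f a (Fin.snoc p x) =
      f (Fin.snoc p x) - f (Fin.snoc p (x / a)) := by
  simp only [lastWeight, Fin.init_snoc, Fin.snoc_last]
  by_cases h : f (Fin.snoc p x) = 0
  · have := hf.scaled_le ha p x
    have h' : f (Fin.snoc p (x / a)) = 0 := le_antisymm (this.trans_eq h) (hf.nonneg _)
    simp [h, h']
  · field_simp

lemma measurable_lastWeight (hf : DecDensity (n+1) R f) (a : ℝ) :
    Measurable (lastWeight f a) := by
  have h0 : Measurable fun w : Fin (n+1) → ℝ => w (Fin.last n) / a := by fun_prop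
  have h1 : Measurable fun w : Fin (n+1) → ℝ =>
      ((Fin.init w : Fin n → ℝ), w (Fin.last n) / a) :=
    (measurable_pi_lambda _ fun i => measurable_pi_apply _).prodMk h0
  exact measurable_const.sub ((hf.meas.comp (measurable_snoc₂.comp h1)).div hf.meas)

lemma slice_lastWeight (hf : DecDensity (n+1) R f) {a : ℝ} (ha : a ∈ Ioc (0:ℝ) 1)
    (p : Fin n → ℝ) :
    ∫ x, f (Fin.snoc p x) * (lastWeight f a (Fin.snoc p x) - (1 - a)) = 0 ∧
    ∫ x, f (Fin.snoc p x) * (lastWeight f a (Fin.snoc p x) * x) =
      (1 - a ^ 2) * ∫ x, f (Fin.snoc p x) * x := by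
  have hi := hf.slice_self p
  have hia : Integrable fun x => f (Fin.snoc p (x / a)) := hi.comp_div ha.1.ne'
  have hix : Integrable fun x => f (Fin.snoc p x) * x := by
    refine hf.slice p measurable_id (M := |R|) fun x hx => ?_
    have := hf.supp _ hx (Fin.last n)
    simp only [Fin.snoc_last] at this
    simpa [abs_of_nonneg this.1] using this.2.trans (le_abs_self R)
  have hixa : Integrable fun x => f (Fin.snoc p (x / a)) * x := by
    have h := (hix.comp_div ha.1.ne').const_mul a
    refine h.congr (Filter.Eventually.of_forall fun x => ?_)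
    have := ha.1.ne'
    field_simp
  constructor
  · calc _ = ∫ x, (a * f (Fin.snoc p x) - f (Fin.snoc p (x / a))) := by
          refine integral_congr_ae (Filter.Eventually.of_forall fun x => ?_)
          simp only [mul_sub, mul_lastWeight hf ha p x]; ring
      _ = _ := by
          rw [integral_sub (hi.const_mul a) hia, integral_const_mul,
            Measure.integral_comp_div (fun y => f (Fin.snoc p y)) a, abs_of_pos ha.1, smul_eq_mul,
            sub_self]
  · calc _ = ∫ x, (f (Fin.snoc p x) * x - f (Fin.snoc p (x / a)) * x) := by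
          refine integral_congr_ae (Filter.Eventually.of_forall fun x => ?_)
          simp only [← mul_assoc, mul_lastWeight hf ha p x]; ring
      _ = _ := by
          rw [integral_sub hix hixa]
          have : ∫ x, f (Fin.snoc p (x / a)) * x = a ^ 2 * ∫ x, f (Fin.snoc p x) * x := by
            calc ∫ x, f (Fin.snoc p (x / a)) * x
                = ∫ x, a * (f (Fin.snoc p (x / a)) * (x / a)) := by
                  refine integral_congr_ae (Filter.Eventually.of_forall fun x => ?_)
                  have := ha.1.ne'
                  field_simp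
              _ = _ := by
                  rw [integral_const_mul,
                    Measure.integral_comp_div (fun y => f (Fin.snoc p y) * y) a,
                    abs_of_pos ha.1, smul_eq_mul]
                  ring
          rw [this]; ring

end step

/-- Selection weights with prescribed first moment and concentrated sum. -/
theorem exists_sel : ∀ {n : ℕ} {R : ℝ} {f : (Fin n → ℝ) → ℝ}, DecDensity n R f →
    ∀ {a : ℝ}, a ∈ Ioc (0:ℝ) 1 → ∀ B : Finset (Fin n),
    ∃ T : (Fin n → ℝ) → Fin n → ℝ, Measurable T ∧ (∀ w i, 0 ≤ T w i ∧ T w i ≤ 1) ∧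
      (∀ i, ∫ w, f w * (T w i * w i) = (1 - a ^ 2) * ∫ w, f w * w i) ∧
      ∫ w, f w * (∑ i ∈ B, (T w i - (1 - a))) ^ 2 ≤ B.card * ∫ w, f w := by
  intro n
  induction n with
  | zero =>
    intro R f hf a ha B
    have hB : B = ∅ := Subsingleton.elim _ _
    exact ⟨fun _ i => i.elim0, measurable_pi_lambda _ fun i => i.elim0, fun w i => i.elim0,
      fun i => i.elim0, by simp [hB]⟩
  | succ n ih =>
    intro R f hf a ha B
    set g := marginal f
    set B' : Finset (Fin n) := Finset.univ.filter fun i => i.castSucc ∈ B
    obtain ⟨T, hTm, hT01, hTw, hTv⟩ := ih hf.marginal ha B'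
    have hinit : Measurable (Fin.init : (Fin (n+1) → ℝ) → Fin n → ℝ) :=
      measurable_pi_lambda _ fun i => measurable_pi_apply _
    refine ⟨fun w => Fin.snoc (T (Fin.init w)) (lastWeight f a w),
      measurable_snoc₂.comp ((hTm.comp hinit).prodMk (measurable_lastWeight hf a)), ?_, ?_, ?_⟩
    · intro w i
      refine Fin.lastCases ?_ (fun j => ?_) i
      · simpa using lastWeight_mem hf ha w
      · simpa using hT01 (Fin.init w) j
    · intro i
      refine Fin.lastCases ?_ (fun j => ?_) i
      · simp only [Fin.snoc_last]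
        have hb : ∀ w, f w ≠ 0 → |w (Fin.last n)| ≤ |R| := fun w hw => by
          have := hf.supp w hw (Fin.last n)
          rw [abs_of_nonneg this.1]; exact this.2.trans (le_abs_self R)
        rw [integral_split (hf.intble (φ := fun w => lastWeight f a w * w (Fin.last n))
            ((measurable_lastWeight hf a).mul (measurable_pi_apply _)) (M := |R|) ?_),
          integral_split (hf.intble (φ := fun w => w (Fin.last n)) (measurable_pi_apply _) hb),
          ← integral_const_mul]
        · refine integral_congr_ae (Filter.Eventually.of_forall fun p => ?_)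
          simpa using (slice_lastWeight hf ha p).2
        · intro w hw
          rw [abs_mul, abs_of_nonneg (lastWeight_mem hf ha w).1]
          exact le_trans (mul_le_of_le_one_left (abs_nonneg _) (lastWeight_mem hf ha w).2) (hb w hw)
      · simp only [Fin.snoc_castSucc]
        have hb : ∀ w, f w ≠ 0 → |w j.castSucc| ≤ |R| := fun w hw => by
          have := hf.supp w hw j.castSucc
          rw [abs_of_nonneg this.1]; exact this.2.trans (le_abs_self R)
        have hT : ∀ w, f w ≠ 0 → |T (Fin.init w) j * w j.castSucc| ≤ |R| := fun w hw => by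
          rw [abs_mul, abs_of_nonneg (hT01 _ j).1]
          exact le_trans (mul_le_of_le_one_left (abs_nonneg _) (hT01 _ j).2) (hb w hw)
        have e1 := hf.integral_marginal (φ := fun p => T p j * p j)
          (((measurable_pi_apply j).comp hTm).mul (measurable_pi_apply j)) (M := |R|) hT
        have e2 := hf.integral_marginal (φ := fun p => p j) (measurable_pi_apply j) (M := |R|) hb
        simp only [Fin.init] at e1 e2 ⊢
        rw [e1, e2]
        exact hTw j
    · set S : (Fin n → ℝ) → ℝ := fun p => ∑ i ∈ B', (T p i - (1 - a))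
      set c : ℝ := if Fin.last n ∈ B then 1 else 0 with hc
      have hc01 : 0 ≤ c ∧ c ≤ 1 ∧ c ^ 2 = c := by rw [hc]; split_ifs <;> norm_num
      set d : (Fin (n+1) → ℝ) → ℝ := fun w => c * (lastWeight f a w - (1 - a))
      have hsum : ∀ w, ∑ i ∈ B, ((Fin.snoc (T (Fin.init w)) (lastWeight f a w) : Fin (n+1) → ℝ) i
          - (1 - a)) = S (Fin.init w) + d w := by
        intro w
        rw [show (∑ i ∈ B, ((Fin.snoc (T (Fin.init w)) (lastWeight f a w) : Fin (n+1) → ℝ) i
            - (1 - a))) = ∑ i : Fin (n+1), if i ∈ B then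
            ((Fin.snoc (T (Fin.init w)) (lastWeight f a w) : Fin (n+1) → ℝ) i - (1 - a)) else 0
            from by simp [Finset.sum_ite_mem]]
        rw [Fin.sum_univ_castSucc]
        simp only [Fin.snoc_castSucc, Fin.snoc_last]
        simp only [S, d, B', hc, Finset.sum_filter]
        split_ifs <;> ring
      have hcard : (B.card : ℝ) = B'.card + c := by
        rw [show (B.card : ℝ) = ∑ i : Fin (n+1), if i ∈ B then (1:ℝ) else 0 by
          simp [Finset.sum_ite_mem]]
        rw [Fin.sum_univ_castSucc, hc]
        simp [B']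
      simp only [hsum]
      have hSm : Measurable S := Finset.measurable_sum _ fun i _ =>
        ((measurable_pi_apply i).comp hTm).sub_const _
      have hSb : ∀ p, |S p| ≤ n := fun p => by
        refine le_trans (Finset.abs_sum_le_sum_abs _ _) (le_trans (Finset.sum_le_sum
          (g := fun _ => (1:ℝ)) fun i _ => ?_) (by
            simpa using (B'.card_le_univ)))
        rw [abs_le]; constructor <;> linarith [hT01 p i, ha.1, ha.2]
      have hdm : Measurable d := ((measurable_lastWeight hf a).sub_const _).const_mul c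
      have hdb : ∀ w, |d w| ≤ 1 := fun w => by
        have := lastWeight_mem hf ha w
        rw [abs_mul, abs_of_nonneg hc01.1]
        refine mul_le_one₀ hc01.2.1 (abs_nonneg _) ?_
        rw [abs_le]; constructor <;> linarith [ha.1, ha.2]
      rw [integral_split (hf.intble (φ := fun w => (S (Fin.init w) + d w) ^ 2)
        (((hSm.comp hinit).add hdm).pow_const 2) (M := (n + 1) ^ 2) fun w _ => ?_)]
      · have key : ∀ p, ∫ x, f (Fin.snoc p x) * (S (Fin.init (Fin.snoc p x : Fin (n+1) → ℝ)) +
            d (Fin.snoc p x)) ^ 2 ≤ g p * S p ^ 2 + c * g p := by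
          intro p
          simp only [Fin.init_snoc]
          have hdp : Measurable fun x : ℝ => d (Fin.snoc p x) :=
            hdm.comp (measurable_snoc₂.comp measurable_prodMk_left)
          have i0 := hf.slice_self p
          have i1 := hf.slice p hdp (M := 1) fun x _ => hdb _
          have i2 := hf.slice p (φ := fun x => d (Fin.snoc p x) ^ 2) (hdp.pow_const 2) (M := 1)
            fun x _ => by rw [abs_pow]; exact pow_le_one₀ (abs_nonneg _) (hdb _)
          have z : ∫ x, f (Fin.snoc p x) * d (Fin.snoc p x) = 0 := by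
            calc _ = ∫ x, c * (f (Fin.snoc p x) *
                  (lastWeight f a (Fin.snoc p x) - (1 - a))) := by simp [d, mul_left_comm]
              _ = 0 := by rw [integral_const_mul, (slice_lastWeight hf ha p).1, mul_zero]
          have sq : ∫ x, f (Fin.snoc p x) * d (Fin.snoc p x) ^ 2 ≤ c * g p := by
            simp only [g, Sym.marginal, ← integral_const_mul]
            refine integral_mono i2 (i0.const_mul c) fun x => ?_
            have hw := lastWeight_mem hf ha (Fin.snoc p x)
            have h1 : (lastWeight f a (Fin.snoc p x) - (1 - a)) ^ 2 ≤ 1 := by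
              rw [sq_le_one_iff_abs_le_one, abs_le]; constructor <;> linarith [ha.1, ha.2]
            simp only [d, mul_pow, hc01.2.2]
            nlinarith [hf.nonneg (Fin.snoc p x), mul_nonneg (hf.nonneg (Fin.snoc p x)) hc01.1]
          calc ∫ x, f (Fin.snoc p x) * (S p + d (Fin.snoc p x)) ^ 2
              = ∫ x, (S p ^ 2 * f (Fin.snoc p x) + (2 * S p) * (f (Fin.snoc p x) * d (Fin.snoc p x))
                  + f (Fin.snoc p x) * d (Fin.snoc p x) ^ 2) := by
                congr 1; ext x; ring
            _ = S p ^ 2 * g p + 0 + ∫ x, f (Fin.snoc p x) * d (Fin.snoc p x) ^ 2 := by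
                rw [integral_add ((i0.const_mul _).fun_add (i1.const_mul _)) i2,
                  integral_add (i0.const_mul _) (i1.const_mul _), integral_const_mul,
                  integral_const_mul, z, mul_zero]
                rfl
            _ ≤ g p * S p ^ 2 + c * g p := by linarith
        have hg := hf.marginal
        have ig2 := hg.intble (φ := fun p => S p ^ 2) (hSm.pow_const 2) (M := (n:ℝ) ^ 2) fun p _ => by
          rw [abs_pow]; exact pow_le_pow_left₀ (abs_nonneg _) (hSb p) 2
        have ig : Integrable g := by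
          simpa using hg.intble (φ := fun _ => 1) measurable_const (M := 1) (by simp)
        refine le_trans (integral_mono_of_nonneg
          (Filter.Eventually.of_forall fun p => integral_nonneg fun x =>
            mul_nonneg (hf.nonneg _) (sq_nonneg _))
          (ig2.fun_add (ig.const_mul c)) (Filter.Eventually.of_forall key)) ?_
        rw [integral_add ig2 (ig.const_mul c), integral_const_mul, hcard, add_mul]
        have e := hf.integral_marginal (φ := fun _ => (1:ℝ)) measurable_const (M := 1) (by simp)
        simp only [mul_one] at e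
        rw [e]
        exact add_le_add hTv le_rfl
      · rw [abs_pow]
        refine pow_le_pow_left₀ (abs_nonneg _) ?_ 2
        exact (abs_add_le _ _).trans (add_le_add (hSb _) (hdb _))

end Vale.Agent.P254.Sym
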