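import Vale.Agent.P230.PL
import Vale.Agent.P254.Sym.Sel

/-! Basic facts on unconditional bodies and their positive parts. -/

open MeasureTheory Set Filter
open scoped ENNReal

namespace Vale.Agent.P254.Sym

/-- The closed positive orthant. -/
def orth (n : ℕ) : Set (Fin n → ℝ) := {x | ∀ i, 0 ≤ x i}

/-- A convex body invariant under all coordinate sign changes. -/
structure Unc {n : ℕ} (K : Set (Fin n → ℝ)) : Prop where
  cpt : IsCompact K
  conv : Convex ℝ K
  int : (interior K).Nonempty
  sign : ∀ x ∈ K, ∀ y : Fin n → ℝ, (∀ i, |y i| = |x i|) → y ∈ K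

variable {n : ℕ} {K : Set (Fin n → ℝ)}

lemma measurableSet_orth (n : ℕ) : MeasurableSet (orth n) := by
  have : orth n = Set.pi univ (fun _ => Ici (0:ℝ)) := by ext x; simp [orth, Pi.le_def]
  rw [this]
  exact MeasurableSet.univ_pi fun _ => measurableSet_Ici

lemma convex_orth (n : ℕ) : Convex ℝ (orth n) := fun x hx y hy a b ha hb _ i => by
  simp only [Pi.add_apply, Pi.smul_apply, smul_eq_mul]
  exact add_nonneg (mul_nonneg ha (hx i)) (mul_nonneg hb (hy i))

lemma Unc.measA (h : Unc K) : MeasurableSet (K ∩ orth n) :=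
  h.cpt.measurableSet.inter (measurableSet_orth n)

lemma Unc.down (h : Unc K) {x y : Fin n → ℝ} (hx : x ∈ K) (hy : ∀ i, |y i| ≤ |x i|) : y ∈ K := by
  classical
  suffices H : ∀ S : Finset (Fin n), (fun i => if i ∈ S then y i else x i) ∈ K by
    simpa using H Finset.univ
  intro S
  induction S using Finset.induction_on with
  | empty => simpa using hx
  | @insert j S hj ih =>
    set z : Fin n → ℝ := fun i => if i ∈ S then y i else x i
    set z' : Fin n → ℝ := Function.update z j (-x j)
    have hz' : z' ∈ K := h.sign z ih z' fun i => by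
      by_cases hij : i = j
      · subst hij; simp [z', z, hj]
      · simp [z', hij]
    obtain ⟨θ, h0, h1, he⟩ : ∃ θ : ℝ, 0 ≤ θ ∧ θ ≤ 1 ∧ θ * x j + (1 - θ) * (-x j) = y j := by
      rcases eq_or_ne (x j) 0 with h0 | h0
      · refine ⟨1, zero_le_one, le_rfl, ?_⟩
        have hyj := hy j
        rw [h0, abs_zero] at hyj
        simp [h0, abs_nonpos_iff.1 hyj]
      · refine ⟨(1 + y j / x j) / 2, ?_, ?_, by field_simp; ring⟩
        all_goals
          have := abs_le.1 (show |y j / x j| ≤ 1 by
            rw [abs_div]; exact div_le_one_of_le₀ (hy j) (abs_nonneg _))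
          linarith
    have := h.conv ih hz' h0 (sub_nonneg.2 h1) (add_sub_cancel θ 1)
    convert this using 1
    funext i
    by_cases hij : i = j
    · subst hij; simp [z', z, hj]; linarith
    · simp [z', z, hij]; split_ifs <;> ring

lemma Unc.bounded (h : Unc K) : ∃ R, 0 ≤ R ∧ ∀ x ∈ K, ∀ i, |x i| ≤ R := by
  obtain ⟨R, hR⟩ := h.cpt.isBounded.exists_norm_le
  exact ⟨max R 0, le_max_right _ _, fun x hx i =>
    ((norm_le_pi_norm x i).trans (hR x hx)).trans (le_max_left _ _)⟩

lemma Unc.dec (h : Unc K) : ∃ R, DecDensity n R ((K ∩ orth n).indicator fun _ => (1:ℝ)) := by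
  obtain ⟨R, -, hR⟩ := h.bounded
  refine ⟨R, measurable_const.indicator h.measA, fun w => ?_, ⟨1, zero_le_one, fun w => ?_⟩,
    fun w hw i => ?_, fun v w hv hvw => ?_⟩
  · exact Set.indicator_nonneg (fun _ _ => zero_le_one) w
  · exact Set.indicator_apply_le' (fun _ => le_rfl) fun _ => zero_le_one
  · have := Set.mem_of_indicator_ne_zero hw
    exact ⟨this.2 i, (le_abs_self _).trans (hR w this.1 i)⟩
  · by_cases hw : w ∈ K ∩ orth n
    · have : v ∈ K ∩ orth n := ⟨h.down hw.1 fun i => by
        rw [abs_of_nonneg (hv i), abs_of_nonneg (hw.2 i)]; exact hvw i, hv⟩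
      simp [hw, this]
    · simp only [Set.indicator_of_notMem hw]
      exact Set.indicator_nonneg (fun _ _ => zero_le_one) v

/-- Reflection in the coordinates selected by `s`. -/
def flip (s : Fin n → Bool) (x : Fin n → ℝ) : Fin n → ℝ := fun i => if s i then -x i else x i

lemma flip_preserving (s : Fin n → Bool) : MeasurePreserving (flip s) volume volume := by
  refine volume_preserving_pi (f := fun i (t : ℝ) => if s i then -t else t) fun i => ?_
  cases s i
  · simp only [Bool.false_eq_true, if_false]; exact MeasurePreserving.id volume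
  · simpa using Measure.measurePreserving_neg (volume : Measure ℝ)

lemma ae_ne_zero (n : ℕ) : ∀ᵐ x : Fin n → ℝ, ∀ i, x i ≠ 0 := by
  refine ae_all_iff.2 fun i => ?_
  rw [ae_iff]
  simp only [not_not]
  rw [volume_pi]
  exact Measure.pi_hyperplane _ i 0

lemma integral_eq_orth {g : (Fin n → ℝ) → ℝ} (hg : Integrable g)
    (he : ∀ x y : Fin n → ℝ, (∀ i, |y i| = |x i|) → g y = g x) :
    ∫ x, g x = 2 ^ n * ∫ x in orth n, g x := by
  classical
  set G := (orth n).indicator g
  have hG : Integrable G := hg.indicator (measurableSet_orth n)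
  have hae : g =ᵐ[volume] fun x => ∑ s : Fin n → Bool, G (flip s x) := by
    filter_upwards [ae_ne_zero n] with x hx
    set s0 : Fin n → Bool := fun i => decide (x i < 0)
    rw [Fintype.sum_eq_single s0]
    · have : flip s0 x ∈ orth n := fun i => by
        by_cases h : x i < 0
        · simp [flip, s0, h]; linarith
        · simp [flip, s0, h]; linarith
      rw [show G (flip s0 x) = g (flip s0 x) from Set.indicator_of_mem this _]
      refine (he _ _ fun i => ?_).symm
      simp only [flip]; split_ifs <;> simp
    · intro s hs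
      refine Set.indicator_of_notMem (fun hm => hs ?_) _
      funext i
      have := hm i
      rcases lt_or_gt_of_ne (hx i) with h | h
      · cases hsi : s i
        · simp [flip, hsi] at this; linarith
        · simp [s0, h]
      · cases hsi : s i
        · simp [s0, h.le]
        · simp [flip, hsi] at this; linarith
  have hf : ∀ s : Fin n → Bool, Integrable (fun x => G (flip s x)) := fun s =>
    ((flip_preserving s).integrable_comp hG.aestronglyMeasurable).2 hG
  have hi : ∀ s : Fin n → Bool, ∫ x, G (flip s x) = ∫ x, G x := fun s => by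
    have h1 := flip_preserving s
    rw [← integral_map h1.measurable.aemeasurable (by rw [h1.map_eq]; exact hG.aestronglyMeasurable),
      h1.map_eq]
  rw [integral_congr_ae hae, integral_finsetSum _ fun s _ => hf s]
  simp only [hi, G, Finset.sum_const, Finset.card_univ, nsmul_eq_mul,
    integral_indicator (measurableSet_orth n)]
  simp [Fintype.card_bool]

lemma Unc.setIntegral_eq (h : Unc K) {φ : (Fin n → ℝ) → ℝ} (hφ : Continuous φ)
    (he : ∀ x y : Fin n → ℝ, (∀ i, |y i| = |x i|) → φ y = φ x) :
    ∫ x in K, φ x = 2 ^ n * ∫ x in K ∩ orth n, φ x := by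
  rw [← integral_indicator h.cpt.measurableSet, integral_eq_orth
    ((hφ.continuousOn.integrableOn_compact h.cpt).integrable_indicator h.cpt.measurableSet),
    setIntegral_indicator h.cpt.measurableSet, inter_comm]
  intro x y hxy
  by_cases hx : x ∈ K
  · simp [hx, h.sign x hx y hxy, he x y hxy]
  · have hy : y ∉ K := fun hy => hx (h.sign y hy x fun i => (hxy i).symm)
    simp [hx, hy]

lemma Unc.setIntegral_odd (h : Unc K) {φ : (Fin n → ℝ) → ℝ} (i : Fin n)
    (ho : ∀ x, φ (Function.update x i (-x i)) = -φ x) : ∫ x in K, φ x = 0 := by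
  set s : Fin n → Bool := fun j => decide (j = i)
  have hs : ∀ x, flip s x = Function.update x i (-x i) := fun x => by
    funext j
    by_cases hj : j = i
    · subst hj; simp [flip, s]
    · simp [flip, s, hj]
  have h1 := flip_preserving s
  have hK : flip s ⁻¹' K = K := by
    ext x
    have key : ∀ z, ∀ j, |flip s z j| = |z j| := fun z j => by
      simp only [flip]; split_ifs <;> simp
    exact ⟨fun hx => h.sign _ hx x fun j => (key x j).symm, fun hx => h.sign x hx _ (key x)⟩
  have hemb : MeasurableEmbedding (flip s) := by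
    have hinv : Function.Involutive (flip s) := fun x => by
      funext j; simp only [flip]; split_ifs <;> simp
    exact (⟨⟨flip s, flip s, hinv, hinv⟩, h1.measurable, h1.measurable⟩ :
      (Fin n → ℝ) ≃ᵐ (Fin n → ℝ)).measurableEmbedding
  have := h1.setIntegral_preimage_emb hemb φ K
  rw [hK] at this
  simp only [hs, ho, integral_neg] at this
  linarith

lemma Unc.volume_eq (h : Unc K) :
    (volume K).toReal = 2 ^ n * (volume (K ∩ orth n)).toReal := by
  have := h.setIntegral_eq (φ := fun _ => (1:ℝ)) continuous_const (fun _ _ _ => rfl)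
  simpa [measureReal_def] using this

lemma Unc.volK_pos (h : Unc K) : 0 < (volume K).toReal :=
  ENNReal.toReal_pos (Measure.measure_pos_of_nonempty_interior volume h.int).ne'
    h.cpt.measure_lt_top.ne

lemma Unc.volA_pos (h : Unc K) : 0 < (volume (K ∩ orth n)).toReal := by
  have h1 := h.volK_pos
  rw [h.volume_eq] at h1
  exact pos_of_mul_pos_right h1 (by positivity)

lemma Unc.coord_pos (h : Unc K) (i : Fin n) : 0 < ∫ x in K ∩ orth n, x i := by
  have hint : IntegrableOn (fun x : Fin n → ℝ => x i) (K ∩ orth n) :=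
    ((continuous_apply i).continuousOn.integrableOn_compact h.cpt).mono_set inter_subset_left
  refine (setIntegral_pos_iff_support_of_nonneg_ae ?_ hint).2 ?_
  · filter_upwards [ae_restrict_mem h.measA] with x hx using hx.2 i
  · have hA : 0 < volume (K ∩ orth n) := (ENNReal.toReal_pos_iff.1 h.volA_pos).1
    refine lt_of_lt_of_le hA (le_of_eq (measure_congr ?_))
    filter_upwards [ae_ne_zero n] with x hx
    exact propext ⟨fun hm => ⟨by simpa using hx i, hm⟩, fun hm => hm.2⟩

lemma Unc.sq_moment (h : Unc K) (i : Fin n) :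
    (∫ x in K ∩ orth n, x i ^ 2) * (volume (K ∩ orth n)).toReal ≤
      2 * (∫ x in K ∩ orth n, x i) ^ 2 := by
  set A := K ∩ orth n with hA
  set μ := (volume : Measure (Fin n → ℝ)).restrict A
  set G : ℝ → ℝ≥0∞ := fun t => μ {a | t ≤ a i}
  have hnn : 0 ≤ᵐ[μ] fun a : Fin n → ℝ => a i := by
    filter_upwards [ae_restrict_mem h.measA] with x hx using hx.2 i
  have hGm : Measurable G := Antitone.measurable fun s t hst =>
    measure_mono fun a ha => le_trans hst ha
  have hG : ∀ t, G t = volume (A ∩ {a | t ≤ a i}) := fun t => by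
    simp only [G, μ]
    rw [Measure.restrict_apply (measurableSet_le measurable_const (measurable_pi_apply i)),
      inter_comm]
  have hV : ∀ s u : ℝ, 0 < s → 0 < u → volume A * G (s + u) ≤ G s * G u := by
    intro s u hs hu
    have hsu : 0 < s + u := by positivity
    have hmA : ∀ t : ℝ, MeasurableSet (A ∩ {a | t ≤ a i}) := fun t =>
      h.measA.inter (measurableSet_le measurable_const (measurable_pi_apply i))
    have key : ∀ a b t : ℝ, 0 < a → 0 < b → a + b = 1 → t ≤ b * (s + u) →
        volume A ^ a * G (s + u) ^ b ≤ G t := by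
      intro a b t ha hb hab ht
      rw [hG, hG]
      refine Vale.Agent.P230.brunn_minkowski_mul ha hb hab h.measA (hmA _) (hmA _) ?_
      intro x hx y hy
      refine ⟨(h.conv.inter (convex_orth n)) hx hy.1 ha.le hb.le hab, ?_⟩
      have h1 : b * (s + u) ≤ b * y i := mul_le_mul_of_nonneg_left hy.2 hb.le
      have h2 : 0 ≤ a * x i := mul_nonneg ha.le (hx.2 i)
      simp only [mem_ofPred_eq, Pi.add_apply, Pi.smul_apply, smul_eq_mul]
      linarith
    set a := u / (s + u)
    set b := s / (s + u)
    have ha : 0 < a := div_pos hu hsu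
    have hb : 0 < b := div_pos hs hsu
    have hab : a + b = 1 := by simp only [a, b]; field_simp; ring
    have h1 := key a b s ha hb hab (le_of_eq (by simp only [b]; field_simp))
    have h2 := key b a u hb ha (by linarith) (le_of_eq (by simp only [a]; field_simp))
    calc volume A * G (s + u)
        = (volume A ^ a * volume A ^ b) * (G (s + u) ^ a * G (s + u) ^ b) := by
          rw [Vale.Agent.P230.rpow_self_split ha.le hb.le hab, Vale.Agent.P230.rpow_self_split ha.le hb.le hab]
      _ = (volume A ^ a * G (s + u) ^ b) * (volume A ^ b * G (s + u) ^ a) := by ring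
      _ ≤ G s * G u := mul_le_mul' h1 h2
  have e1 : ∫⁻ a, ENNReal.ofReal (a i) ∂μ = ∫⁻ t in Ioi 0, G t :=
    lintegral_eq_lintegral_meas_le μ hnn (measurable_pi_apply i).aemeasurable
  have e2 : ∫⁻ a, ENNReal.ofReal (a i ^ 2) ∂μ = 2 * ∫⁻ t in Ioi 0, G t * ENNReal.ofReal t := by
    have := lintegral_rpow_eq_lintegral_meas_le_mul μ hnn (measurable_pi_apply i).aemeasurable
      (two_pos : (0:ℝ) < 2)
    norm_num at this ⊢
    exact this
  have e3 : ∫⁻ t in Ioi 0, G t * ENNReal.ofReal t =
      ∫⁻ s in Ioi (0:ℝ), ∫⁻ u in Ioi (0:ℝ), G (s + u) := by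
    have hF : Measurable (Function.uncurry fun s t : ℝ => (Ioi s).indicator G t) := by
      have : (Function.uncurry fun s t : ℝ => (Ioi s).indicator G t) =
          {q : ℝ × ℝ | q.1 < q.2}.indicator (G ∘ Prod.snd) := by
        ext q; simp [Function.uncurry, Set.indicator]
      rw [this]
      exact (hGm.comp measurable_snd).indicator (measurableSet_lt measurable_fst measurable_snd)
    calc ∫⁻ t in Ioi 0, G t * ENNReal.ofReal t
        = ∫⁻ t in Ioi (0:ℝ), ∫⁻ s in Ioi (0:ℝ), (Ioi s).indicator G t := by
          refine setLIntegral_congr_fun measurableSet_Ioi fun t _ => ?_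
          have : (fun s => (Ioi s).indicator G t) = (Iio t).indicator fun _ => G t := by
            ext s; simp [Set.indicator]
          rw [this, lintegral_indicator measurableSet_Iio, setLIntegral_const,
            Measure.restrict_apply measurableSet_Iio, Iio_inter_Ioi, Real.volume_Ioo, sub_zero]
      _ = ∫⁻ s in Ioi (0:ℝ), ∫⁻ t in Ioi (0:ℝ), (Ioi s).indicator G t :=
          (lintegral_lintegral_swap hF.aemeasurable).symm
      _ = ∫⁻ s in Ioi (0:ℝ), ∫⁻ u in Ioi (0:ℝ), G (s + u) := by
          refine setLIntegral_congr_fun measurableSet_Ioi fun s hs => ?_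
          rw [lintegral_indicator measurableSet_Ioi, Measure.restrict_restrict measurableSet_Ioi,
            Ioi_inter_Ioi, sup_eq_left.2 (le_of_lt hs),
            ← (measurePreserving_add_left volume s).setLIntegral_comp_preimage_emb
              (measurableEmbedding_addLeft s) G (Ioi s), Set.preimage_const_add_Ioi, sub_self]
  have main : volume A * ∫⁻ a, ENNReal.ofReal (a i ^ 2) ∂μ ≤
      2 * (∫⁻ a, ENNReal.ofReal (a i) ∂μ) ^ 2 := by
    rw [e1, e2, e3, mul_left_comm, sq]
    refine mul_le_mul' le_rfl ?_
    rw [← lintegral_const_mul' _ _ (hA ▸ (measure_mono inter_subset_left).trans_lt h.cpt.measure_lt_top).ne,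
      ← lintegral_mul_const _ hGm]
    refine setLIntegral_mono (hGm.mul_const _) fun s hs => ?_
    rw [← lintegral_const_mul' _ _ (hA ▸ (measure_mono inter_subset_left).trans_lt h.cpt.measure_lt_top).ne,
      ← lintegral_const_mul _ hGm]
    exact setLIntegral_mono (hGm.const_mul _) fun u hu => hV s u hs hu
  have i1 : Integrable (fun a : Fin n → ℝ => a i) μ :=
    ((continuous_apply i).continuousOn.integrableOn_compact h.cpt).mono_set inter_subset_left
  have i2 : Integrable (fun a : Fin n → ℝ => a i ^ 2) μ :=
    (((continuous_apply i).pow 2).continuousOn.integrableOn_compact h.cpt).mono_set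
      inter_subset_left
  rw [← ofReal_integral_eq_lintegral_ofReal i1 hnn,
    ← ofReal_integral_eq_lintegral_ofReal i2 (Eventually.of_forall fun a => sq_nonneg _)] at main
  have := ENNReal.toReal_mono (ENNReal.mul_ne_top (by norm_num)
    (ENNReal.pow_ne_top ENNReal.ofReal_ne_top)) main
  rw [ENNReal.toReal_mul, ENNReal.toReal_mul, ENNReal.toReal_pow,
    ENNReal.toReal_ofReal (integral_nonneg_of_ae hnn),
    ENNReal.toReal_ofReal (integral_nonneg fun a => sq_nonneg _), ENNReal.toReal_ofNat] at this
  linarith

end Vale.Agent.P254.Sym
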