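import Mathlib

/-! Rearrangement inequalities and the rotation lemma for parking functions. -/

open Finset

namespace Vale.Agent.P254.Sym

/-- The sum of the entries with index at least `l`. -/
noncomputable def tailSum {N : ℕ} (a : Fin N → ℝ) (l : Fin N) : ℝ := ∑ r ∈ Finset.Ici l, a r

/-- Fractional knapsack: weights of total at most `N - l` lose against the top entries. -/
lemma sum_mul_le_tailSum {N : ℕ} {v t : Fin N → ℝ} (hv : Monotone v) (hv0 : ∀ r, 0 ≤ v r)
    (ht : ∀ r, 0 ≤ t r ∧ t r ≤ 1) (l : Fin N) (hs : ∑ r, t r ≤ ((N - l : ℕ) : ℝ)) :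
    ∑ r, t r * v r ≤ tailSum v l := by
  set θ := v l
  calc ∑ r, t r * v r = ∑ r, t r * (v r - θ) + θ * ∑ r, t r := by
        rw [mul_sum, ← sum_add_distrib]; refine sum_congr rfl fun r _ => by ring
    _ ≤ ∑ r ∈ Ici l, (v r - θ) + θ * ((N - l : ℕ) : ℝ) := by
        refine add_le_add ?_ (mul_le_mul_of_nonneg_left hs (hv0 l))
        rw [← sum_add_sum_compl (Ici l) fun r => t r * (v r - θ)]
        have h1 : ∑ r ∈ Ici l, t r * (v r - θ) ≤ ∑ r ∈ Ici l, (v r - θ) :=
          sum_le_sum fun r hr => mul_le_of_le_one_left (sub_nonneg.2 (hv (mem_Ici.1 hr))) (ht r).2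
        have h2 : ∑ r ∈ (Ici l)ᶜ, t r * (v r - θ) ≤ 0 := by
          refine sum_nonpos fun r hr => mul_nonpos_of_nonneg_of_nonpos (ht r).1 ?_
          simp only [mem_compl, mem_Ici, not_le] at hr
          exact sub_nonpos.2 (hv hr.le)
        linarith
    _ = tailSum v l := by
        rw [sum_sub_distrib, sum_const, Fin.card_Ici, nsmul_eq_mul, tailSum]; ring

/-- Abel summation against a monotone nonnegative vector. -/
lemma exists_abel : ∀ {N : ℕ} {Y : Fin N → ℝ}, Monotone Y → (∀ r, 0 ≤ Y r) →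
    ∃ Δ : Fin N → ℝ, (∀ l, 0 ≤ Δ l) ∧
      ∀ a : Fin N → ℝ, ∑ r, Y r * a r = ∑ l, Δ l * tailSum a l := by
  intro N
  induction N with
  | zero => intro Y _ _; exact ⟨0, fun l => le_rfl, fun a => by simp⟩
  | succ N ih =>
    intro Y hY hY0
    obtain ⟨Δ, hΔ, h⟩ := ih (Y := fun r => Y r.succ - Y 0)
      (fun i j hij => sub_le_sub_right (hY (Fin.succ_le_succ_iff.2 hij)) _)
      (fun r => sub_nonneg.2 (hY (Fin.zero_le _)))
    refine ⟨Fin.cons (Y 0) Δ, fun l => Fin.cases (hY0 0) hΔ l, fun a => ?_⟩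
    have ht : ∀ l : Fin N, tailSum a l.succ = tailSum (fun r => a r.succ) l := fun l => by
      rw [tailSum, tailSum, ← Fin.map_succEmb_Ici, sum_map]; rfl
    have ht0 : tailSum a 0 = a 0 + ∑ r : Fin N, a r.succ := by
      rw [tailSum, ← Fin.sum_univ_succ]; congr 1; ext x; simp
    rw [Fin.sum_univ_succ, Fin.sum_univ_succ]
    simp only [Fin.cons_zero, Fin.cons_succ, ht, ← h, ht0]
    simp only [sub_mul, sum_sub_distrib, ← mul_sum]
    ring

variable {ι : Type*}

/-- All the upper level sets of `g` are small. -/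
def GoodOn {N : ℕ} (B : Finset ι) (g : ι → Fin N) : Prop :=
  ∀ r < N, #{i ∈ B | r ≤ (g i : ℕ)} + r ≤ N

lemma exists_rotation {N : ℕ} [NeZero N] (B : Finset ι) (hB : #B = N) (g : ι → Fin N) :
    ∃ s : Fin N, GoodOn B (fun i => g i - s) := by
  set C : ℕ → ℕ := fun j => #{i ∈ B | (g i : ℕ) < j}
  obtain ⟨s, -, hs⟩ := (univ : Finset (Fin N)).exists_min_image
    (fun j => (C j : ℤ) - (j : ℕ)) univ_nonempty
  classical
  refine ⟨s, fun r hr => ?_⟩
  change #{i ∈ B | r ≤ ((g i - s : Fin N) : ℕ)} + r ≤ N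
  have hC0 : C 0 = 0 := by simp [C]
  have hCN : C N = N := by simp [C, hB, filter_true_of_mem]
  have hmin : ∀ j ≤ N, (C s : ℤ) - (s : ℕ) ≤ (C j : ℤ) - j := by
    intro j hj
    rcases lt_or_eq_of_le hj with hj | rfl
    · exact hs ⟨j, hj⟩ (mem_univ _)
    · have := hs 0 (mem_univ _)
      simp [hC0, hCN] at this ⊢
      omega
  have hcompl := card_filter_add_card_filter_not (s := B) (fun i => r ≤ ((g i - s : Fin N) : ℕ))
  suffices h : (r : ℤ) ≤ #{i ∈ B | ¬ r ≤ ((g i - s : Fin N) : ℕ)} by omega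
  have hval : ∀ i, ((g i - s : Fin N) : ℕ) =
      if (s : ℕ) ≤ g i then (g i : ℕ) - s else N + g i - s := fun i => by
    have := (g i).isLt; have := s.isLt
    rw [Fin.val_sub]
    split_ifs with hsg
    · rw [show N - (s:ℕ) + g i = (g i - s : ℕ) + N by omega, Nat.add_mod_right,
        Nat.mod_eq_of_lt (by omega)]
    · rw [Nat.mod_eq_of_lt (by omega)]; omega
  have hsplit : ∀ j k, j ≤ k → C j + #{i ∈ B | j ≤ (g i : ℕ) ∧ (g i : ℕ) < k} = C k := by
    intro j k hjk
    rw [← card_union_of_disjoint]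
    · congr 1; ext i; simp only [mem_union, mem_filter]
      constructor
      · rintro (⟨h1, h2⟩ | ⟨h1, h2, h3⟩) <;> exact ⟨h1, by omega⟩
      · rintro ⟨h1, h2⟩
        by_cases h3 : (g i : ℕ) < j
        · exact Or.inl ⟨h1, h3⟩
        · exact Or.inr ⟨h1, by omega, h2⟩
    · rw [disjoint_filter]; intro i _ h; omega
  have hsN := s.isLt
  by_cases hcase : (s : ℕ) + r ≤ N
  · have h1 := hsplit s (s + r) (by omega)
    have h2 := hmin (s + r) hcase
    have h3 : #{i ∈ B | (s:ℕ) ≤ (g i : ℕ) ∧ (g i : ℕ) < s + r} ≤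
        #{i ∈ B | ¬ r ≤ ((g i - s : Fin N) : ℕ)} := by
      refine card_le_card fun i hi => ?_
      simp only [mem_filter] at hi ⊢
      refine ⟨hi.1, ?_⟩
      rw [hval]; split_ifs <;> omega
    push_cast at h2 ⊢
    omega
  · have h1 := hsplit s N hsN.le
    have h2 := hmin (s + r - N) (by omega)
    have h3 : #{i ∈ B | (s:ℕ) ≤ (g i : ℕ) ∧ (g i : ℕ) < N} + C (s + r - N) ≤
        #{i ∈ B | ¬ r ≤ ((g i - s : Fin N) : ℕ)} := by
      rw [← card_union_of_disjoint]
      · refine card_le_card fun i hi => ?_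
        have := (g i).isLt
        simp only [mem_union, mem_filter] at hi ⊢
        rcases hi with ⟨h, h'⟩ | ⟨h, h'⟩ <;> refine ⟨h, ?_⟩ <;> rw [hval] <;> split_ifs <;> omega
      · rw [disjoint_filter]; intro i _ h; omega
    rw [hCN] at h1
    omega

lemma two_mul_sum_min : ∀ {N k : ℕ}, k ≤ N →
    2 * (∑ r ∈ range N, min k (N - r)) + k * k = k * (2 * N + 1) := by
  intro N
  induction N with
  | zero => intro k hk; obtain rfl : k = 0 := by omega
            simp
  | succ N ih =>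
    intro k hk
    rw [sum_range_succ']
    simp only [Nat.add_sub_add_right, Nat.sub_zero, min_eq_left hk]
    rcases Nat.lt_or_ge N k with h | h
    · obtain rfl : k = N + 1 := by omega
      have h1 : ∑ x ∈ range N, min (N + 1) (N - x) = ∑ x ∈ range N, min N (N - x) :=
        sum_congr rfl fun x _ => by omega
      have h2 := ih le_rfl
      rw [h1]
      linarith
    · have h2 := ih h
      linarith

/-- The sum of `k` of the values `g + 1` of a good `g`. -/
lemma GoodOn.sum_le {N : ℕ} {B S : Finset ι} {g : ι → Fin N} (hg : GoodOn B g) (hB : #B = N)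
    (hS : S ⊆ B) :
    2 * ∑ i ∈ S, (((g i : ℕ) : ℝ) + 1) ≤ #S * (2 * N + 1 - #S) := by
  have hk : #S ≤ N := hB ▸ card_le_card hS
  have key : ∑ i ∈ S, ((g i : ℕ) + 1) ≤ ∑ r ∈ range N, min #S (N - r) := by
    calc ∑ i ∈ S, ((g i : ℕ) + 1) = ∑ i ∈ S, #{r ∈ range N | r ≤ (g i : ℕ)} := by
          refine sum_congr rfl fun i _ => ?_
          have := (g i).isLt
          rw [show {r ∈ range N | r ≤ (g i : ℕ)} = range ((g i : ℕ) + 1) by
            ext r; simp; omega, card_range]
      _ = ∑ r ∈ range N, #{i ∈ S | r ≤ (g i : ℕ)} := by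
          simp only [card_filter]; rw [sum_comm]
      _ ≤ _ := by
          refine sum_le_sum fun r hr => le_min (card_filter_le _ _) ?_
          have h := hg r (mem_range.1 hr)
          have := card_le_card (filter_subset_filter (fun i => r ≤ (g i : ℕ)) hS)
          omega
  have h2 := two_mul_sum_min hk
  have h3 : 2 * ∑ i ∈ S, ((g i : ℕ) + 1) + #S * #S ≤ #S * (2 * N + 1) := by omega
  have h4 : ((2 * ∑ i ∈ S, ((g i : ℕ) + 1) + #S * #S : ℕ) : ℝ) ≤ ((#S * (2 * N + 1) : ℕ) : ℝ) :=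
    Nat.cast_le.2 h3
  push_cast at h4
  nlinarith

end Vale.Agent.P254.Sym
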