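import Mathlib

/-! The definitions used in the statements about P254. -/

open MeasureTheory

namespace Vale.Agent.P254.Sym

/-- The centroid of a set of finite positive volume. -/
noncomputable def centroid {n : ℕ} (K : Set (Fin n → ℝ)) (i : Fin n) : ℝ :=
  (volume K).toReal⁻¹ * ∫ x in K, x i

/-- The covariance matrix of the uniform law on a set. -/
noncomputable def covMatrix {n : ℕ} (K : Set (Fin n → ℝ)) : Matrix (Fin n) (Fin n) ℝ :=
  Matrix.of fun i j =>
    (volume K).toReal⁻¹ * ∫ x in K, (x i - centroid K i) * (x j - centroid K j)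

/-- The isotropic constant `(det Σ_K / |K| ^ 2) ^ (1 / (2 n))`. -/
noncomputable def isotropicConst {n : ℕ} (K : Set (Fin n → ℝ)) : ℝ :=
  ((covMatrix K).det / (volume K).toReal ^ 2) ^ ((1 : ℝ) / (2 * (n : ℝ)))

/-- The standard simplex: the convex hull of the origin and the unit vectors. -/
def simplex (n : ℕ) : Set (Fin n → ℝ) := {x | (∀ i, 0 ≤ x i) ∧ ∑ i, x i ≤ 1}

end Vale.Agent.P254.Sym
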