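import Vale.Agent.P254.Sym.Defs
import Vale.Agent.P254.Sym.Sel

/-! Volume and second moments of the standard simplex. -/

open MeasureTheory Set Matrix
open scoped Pointwise Nat

namespace Vale.Agent.P254.Sym

variable {n : ℕ}

lemma measurePreserving_perm (π : Equiv.Perm (Fin n)) :
    MeasurePreserving (fun x : Fin n → ℝ => x ∘ π) volume volume := by
  have h := volume_measurePreserving_piCongrLeft (fun _ : Fin n => ℝ) π.symm
  convert h using 1
  funext x i
  simp [MeasurableEquiv.piCongrLeft, Equiv.piCongrLeft, Equiv.piCongrLeft']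

lemma setIntegral_perm (π : Equiv.Perm (Fin n)) {s : Set (Fin n → ℝ)}
    (hs : ∀ x, x ∘ π ∈ s ↔ x ∈ s) (g : (Fin n → ℝ) → ℝ) :
    ∫ x in s, g (x ∘ π) = ∫ x in s, g x := by
  have he : MeasurableEmbedding fun x : Fin n → ℝ => x ∘ π :=
    (⟨⟨fun x => x ∘ π, fun x => x ∘ π.symm, fun x => by ext i; simp, fun x => by ext i; simp⟩,
      (measurePreserving_perm π).measurable, (measurePreserving_perm π.symm).measurable⟩ :
      (Fin n → ℝ) ≃ᵐ (Fin n → ℝ)).measurableEmbedding
  have := (measurePreserving_perm π).setIntegral_preimage_emb he g s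
  rwa [show (fun x : Fin n → ℝ => x ∘ π) ⁻¹' s = s from Set.ext hs] at this

lemma simplex_perm (π : Equiv.Perm (Fin n)) (x : Fin n → ℝ) :
    x ∘ π ∈ simplex n ↔ x ∈ simplex n := by
  simp only [simplex, mem_ofPred_eq, Function.comp_apply]
  rw [Equiv.sum_comp π x]
  constructor
  · rintro ⟨h1, h2⟩; exact ⟨fun i => by simpa using h1 (π.symm i), h2⟩
  · rintro ⟨h1, h2⟩; exact ⟨fun i => h1 _, h2⟩

lemma isCompact_simplex (n : ℕ) : IsCompact (simplex n) := by
  refine (isCompact_Icc (a := fun _ => (0:ℝ)) (b := fun _ => (1:ℝ))).of_isClosed_subset ?_ ?_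
  · have : simplex n = (⋂ i, {x | 0 ≤ x i}) ∩ {x | ∑ i, x i ≤ 1} := by ext x; simp [simplex]
    rw [this]
    exact (isClosed_iInter fun i => isClosed_le continuous_const (continuous_apply i)).inter
      (isClosed_le (continuous_finsetSum _ fun i _ => continuous_apply i) continuous_const)
  · intro x hx
    exact ⟨hx.1, fun i => (Finset.single_le_sum (fun j _ => hx.1 j) (Finset.mem_univ i)).trans hx.2⟩

lemma simplex_split (p d : ℕ) {ψ : (Fin n → ℝ) → ℝ} (hψ : Continuous ψ)
    (hh : ∀ (c : ℝ) x, ψ (c • x) = c ^ d * ψ x) :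
    ∫ w in simplex (n + 1), w (Fin.last n) ^ p * ψ (Fin.init w) =
      (∫ t : ℝ in (0:ℝ)..1, t ^ p * (1 - t) ^ (n + d)) * ∫ x in simplex n, ψ x := by
  have hm : MeasurableSet (simplex (n + 1)) := (isCompact_simplex _).measurableSet
  set g : (Fin (n+1) → ℝ) → ℝ := fun w => w (Fin.last n) ^ p * ψ (Fin.init w)
  have hg : Integrable ((simplex (n+1)).indicator g) := by
    refine (ContinuousOn.integrableOn_compact (isCompact_simplex _) ?_).integrable_indicator hm
    exact (((continuous_apply _).pow p).mul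
      (hψ.comp (continuous_pi fun i => continuous_apply _))).continuousOn
  have hmp := (volume_preserving_piFinSuccAbove (fun _ : Fin (n+1) => ℝ) (Fin.last n)).symm
  rw [← integral_indicator hm, ← hmp.integral_comp']
  have hi : Integrable fun q => (simplex (n+1)).indicator g
      ((MeasurableEquiv.piFinSuccAbove (fun _ : Fin (n+1) => ℝ) (Fin.last n)).symm q) :=
    (hmp.integrable_comp_emb (MeasurableEquiv.measurableEmbedding _)).2 hg
  rw [Measure.volume_eq_prod] at hi ⊢
  rw [integral_prod _ hi, intervalIntegral.integral_of_le zero_le_one, ← integral_mul_const,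
    integral_Ioc_eq_integral_Ioo, ← integral_indicator measurableSet_Ioo]
  have hne : ∀ᵐ t : ℝ, t ≠ 1 ∧ t ≠ 0 := by
    simp only [Filter.eventually_and]
    exact ⟨Measure.ae_ne _ _, Measure.ae_ne _ _⟩
  refine integral_congr_ae ?_
  filter_upwards [hne] with t ht
  simp only [MeasurableEquiv.piFinSuccAbove_symm_apply, Fin.insertNthEquiv, Equiv.coe_fn_mk,
    Fin.insertNth_last']
  by_cases hto : t ∈ Ioo (0:ℝ) 1
  · rw [Set.indicator_of_mem hto]
    have hc : (0:ℝ) < 1 - t := by linarith [hto.2]
    have hset : ∀ x : Fin n → ℝ, (Fin.snoc x t : Fin (n+1) → ℝ) ∈ simplex (n+1) ↔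
        x ∈ (1 - t) • simplex n := by
      intro x
      rw [Set.mem_smul_set_iff_inv_smul_mem₀ hc.ne']
      simp only [simplex, mem_ofPred_eq, Pi.smul_apply, smul_eq_mul, Fin.sum_univ_castSucc,
        Fin.snoc_castSucc, Fin.snoc_last, ← Finset.mul_sum, Fin.forall_fin_succ']
      rw [inv_mul_le_iff₀ hc, mul_one]
      constructor
      · rintro ⟨⟨h1, -⟩, h2⟩
        exact ⟨fun i => mul_nonneg (inv_nonneg.2 hc.le) (h1 i), by linarith⟩
      · rintro ⟨h1, h2⟩
        exact ⟨⟨fun i => (mul_nonneg_iff_of_pos_left (inv_pos.2 hc)).1 (h1 i), hto.1.le⟩,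
          by linarith⟩
    have hfun : (fun x : Fin n → ℝ => (simplex (n+1)).indicator g (Fin.snoc x t)) =
        ((1 - t) • simplex n).indicator fun x => t ^ p * ψ x := by
      funext x
      by_cases h : x ∈ (1 - t) • simplex n
      · simp [h, (hset x).2 h, g]
      · simp [h, mt (hset x).1 h]
    rw [hfun, integral_indicator ((isCompact_simplex n).smul (1 - t)).measurableSet,
      integral_const_mul]
    have h := Measure.setIntegral_comp_smul_of_pos volume ψ (simplex n) hc
    simp only [hh, integral_const_mul, Module.finrank_fin_fun, smul_eq_mul] at h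
    have : ((1 - t) ^ n) ≠ 0 := (pow_pos hc n).ne'
    field_simp at h
    rw [← h, pow_add]; ring
  · rw [Set.indicator_of_notMem hto]
    refine integral_eq_zero_of_ae (Filter.Eventually.of_forall fun x => ?_)
    refine Set.indicator_of_notMem (fun hx => hto ?_) _
    have h1 := hx.1 (Fin.last n)
    have h2 := hx.2
    have h3 : 0 ≤ ∑ i : Fin n, (Fin.snoc x t : Fin (n+1) → ℝ) i.castSucc :=
      Finset.sum_nonneg fun i _ => hx.1 _
    rw [Fin.sum_univ_castSucc] at h2
    simp only [Fin.snoc_last] at h1 h2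
    exact ⟨lt_of_le_of_ne h1 (Ne.symm ht.2), lt_of_le_of_ne (by linarith) ht.1⟩

lemma beta_zero (m : ℕ) : ∫ t : ℝ in (0:ℝ)..1, t ^ 0 * (1 - t) ^ m = (1:ℝ) / (m + 1) := by
  have h := intervalIntegral.integral_comp_sub_left (fun u : ℝ => u ^ m) (a := 0) (b := 1) 1
  simp only [pow_zero, one_mul, h]
  simp [integral_pow]

lemma beta_one (m : ℕ) : ∫ t : ℝ in (0:ℝ)..1, t ^ 1 * (1 - t) ^ m = (1:ℝ) / ((m + 1) * (m + 2)) := by
  have h := intervalIntegral.integral_comp_sub_left (fun u : ℝ => (1 - u) ^ 1 * u ^ m)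
    (a := 0) (b := 1) 1
  simp only [sub_sub_cancel] at h
  rw [h]
  simp only [sub_self, sub_zero]
  have e : ∀ u : ℝ, (1 - u) ^ 1 * u ^ m = u ^ m - u ^ (m + 1) := fun u => by ring
  simp only [e]
  rw [intervalIntegral.integral_sub (Continuous.intervalIntegrable (by fun_prop) _ _)
    (Continuous.intervalIntegrable (by fun_prop) _ _), integral_pow, integral_pow]
  push_cast
  simp
  field_simp
  ring

lemma beta_two (m : ℕ) :
    ∫ t : ℝ in (0:ℝ)..1, t ^ 2 * (1 - t) ^ m = (2:ℝ) / ((m + 1) * (m + 2) * (m + 3)) := by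
  have h := intervalIntegral.integral_comp_sub_left (fun u : ℝ => (1 - u) ^ 2 * u ^ m)
    (a := 0) (b := 1) 1
  simp only [sub_sub_cancel] at h
  rw [h]
  simp only [sub_self, sub_zero]
  have e : ∀ u : ℝ, (1 - u) ^ 2 * u ^ m = u ^ m - 2 * u ^ (m + 1) + u ^ (m + 2) := fun u => by ring
  simp only [e]
  rw [intervalIntegral.integral_add (Continuous.intervalIntegrable (by fun_prop) _ _)
    (Continuous.intervalIntegrable (by fun_prop) _ _),
    intervalIntegral.integral_sub (Continuous.intervalIntegrable (by fun_prop) _ _)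
    (Continuous.intervalIntegrable (by fun_prop) _ _), intervalIntegral.integral_const_mul,
    integral_pow, integral_pow, integral_pow]
  push_cast
  simp
  field_simp
  ring

lemma simplex_vol : ∀ n : ℕ, ∫ _ in simplex n, (1:ℝ) = 1 / n ! := by
  intro n
  induction n with
  | zero =>
    have : simplex 0 = univ := by ext x; simp [simplex]
    simp [this, measureReal_def, volume_pi]
  | succ n ih =>
    have h := simplex_split (n := n) 0 0 (ψ := fun _ => (1:ℝ)) continuous_const (by simp)
    rw [beta_zero, ih] at h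
    simp only [pow_zero, mul_one] at h
    rw [h, Nat.factorial_succ, add_zero]
    push_cast
    field_simp

lemma simplex_first (i : Fin n) : ∫ x in simplex n, x i = 1 / ((n + 1) * n !) := by
  obtain ⟨m, rfl⟩ : ∃ m, n = m + 1 := ⟨n - 1, by have := i.isLt; omega⟩
  rw [← setIntegral_perm (Equiv.swap i (Fin.last m)) (simplex_perm _) fun x => x i]
  simp only [Function.comp_apply, Equiv.swap_apply_left]
  have h := simplex_split (n := m) 1 0 (ψ := fun _ => (1:ℝ)) continuous_const (by simp)
  rw [beta_one, simplex_vol] at h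
  simp only [pow_one, mul_one, add_zero] at h
  rw [h, Nat.factorial_succ]
  push_cast
  field_simp
  ring

lemma simplex_sq (i : Fin n) :
    ∫ x in simplex n, x i ^ 2 = 2 / ((n + 1) * (n + 2) * n !) := by
  obtain ⟨m, rfl⟩ : ∃ m, n = m + 1 := ⟨n - 1, by have := i.isLt; omega⟩
  rw [← setIntegral_perm (Equiv.swap i (Fin.last m)) (simplex_perm _) fun x => x i ^ 2]
  simp only [Function.comp_apply, Equiv.swap_apply_left]
  have h := simplex_split (n := m) 2 0 (ψ := fun _ => (1:ℝ)) continuous_const (by simp)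
  rw [beta_two, simplex_vol] at h
  simp only [mul_one, add_zero] at h
  rw [h, Nat.factorial_succ]
  push_cast
  field_simp
  ring

lemma simplex_cross {i j : Fin n} (hij : i ≠ j) :
    ∫ x in simplex n, x i * x j = 1 / ((n + 1) * (n + 2) * n !) := by
  obtain ⟨m, rfl⟩ : ∃ m, n = m + 1 := ⟨n - 1, by have := i.isLt; omega⟩
  rw [← setIntegral_perm (Equiv.swap i (Fin.last m)) (simplex_perm _) fun x => x i * x j]
  simp only [Function.comp_apply, Equiv.swap_apply_left]
  obtain ⟨k, hk⟩ : ∃ k : Fin m, Equiv.swap i (Fin.last m) j = k.castSucc := by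
    refine ⟨(Equiv.swap i (Fin.last m) j).castPred ?_, (Fin.castSucc_castPred _ _).symm⟩
    intro h
    exact hij (((Equiv.swap i (Fin.last m)).injective
      (h.trans (Equiv.swap_apply_left i (Fin.last m)).symm)).symm)
  simp only [hk]
  have h := simplex_split (n := m) 1 1 (ψ := fun x => x k) (continuous_apply k) (by simp)
  rw [beta_one, simplex_first] at h
  simp only [pow_one, Fin.init] at h
  rw [h, Nat.factorial_succ]
  push_cast
  field_simp

lemma isotropicConst_simplex_eq (n : ℕ) :
    isotropicConst (simplex n) =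
      (((n ! : ℝ)) ^ 2 / ((n + 1) ^ (n + 1) * (n + 2) ^ n)) ^ ((1:ℝ) / (2 * (n : ℝ))) := by
  have hvol : (volume (simplex n)).toReal = 1 / n ! := by
    have := simplex_vol n
    simpa [measureReal_def] using this
  have hc : ∀ i, centroid (simplex n) i = 1 / (n + 1) := fun i => by
    rw [centroid, hvol, simplex_first]; field_simp
  have hint : ∀ F : (Fin n → ℝ) → ℝ, Continuous F → IntegrableOn F (simplex n) := fun F hF =>
    hF.continuousOn.integrableOn_compact (isCompact_simplex n)
  set d : ℝ := 1 / ((n + 1) * (n + 2)) with hd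
  set c : ℝ := 1 / ((n + 1) ^ 2 * (n + 2)) with hcdef
  have hcov : covMatrix (simplex n) =
      d • ((1 : Matrix (Fin n) (Fin n) ℝ) +
        replicateCol Unit (fun _ : Fin n => -(c / d)) * replicateRow Unit (fun _ : Fin n => (1:ℝ))) := by
    ext i j
    simp only [covMatrix, of_apply, hc, hvol, Matrix.smul_apply, Matrix.add_apply, Matrix.mul_apply, replicateCol_apply,
      replicateRow_apply, Finset.univ_unique, Finset.sum_singleton, smul_eq_mul, one_apply, mul_one]
    have e : ∀ x : Fin n → ℝ, (x i - 1 / (n + 1)) * (x j - 1 / (n + 1)) =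
        x i * x j - (1 / (n + 1)) * x i - ((1 / (n + 1)) * x j - (1 / (n + 1)) ^ 2 * 1) :=
      fun x => by ring
    simp only [e]
    have iij : Integrable (fun x : Fin n → ℝ => x i * x j) (volume.restrict (simplex n)) :=
      hint _ (by fun_prop)
    have ii : ∀ l, Integrable (fun x : Fin n → ℝ => (1 / ((n:ℝ) + 1)) * x l)
        (volume.restrict (simplex n)) := fun l => hint _ (by fun_prop)
    have i1 : Integrable (fun _ : Fin n → ℝ => (1 / ((n:ℝ) + 1)) ^ 2 * (1:ℝ))
        (volume.restrict (simplex n)) := hint _ (by fun_prop)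
    have j1 : Integrable (fun x : Fin n → ℝ => x i * x j - 1 / ((n:ℝ) + 1) * x i)
        (volume.restrict (simplex n)) := iij.sub (ii i)
    have j2 : Integrable (fun x : Fin n → ℝ => 1 / ((n:ℝ) + 1) * x j - (1 / ((n:ℝ) + 1)) ^ 2 * 1)
        (volume.restrict (simplex n)) := (ii j).sub i1
    rw [integral_sub j1 j2, integral_sub iij (ii i),
      integral_sub (ii j) i1,
      integral_const_mul, integral_const_mul, integral_const_mul, simplex_vol, simplex_first,
      simplex_first]
    by_cases hij : i = j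
    · subst hij
      simp only [← pow_two, simplex_sq, if_true, hd, hcdef]
      field_simp
      ring
    · simp only [simplex_cross hij, hij, if_false, hd, hcdef]
      field_simp
      ring
  rw [isotropicConst, hcov, det_smul, det_one_add_replicateCol_mul_replicateRow, hvol]
  congr 1
  simp only [dotProduct, one_mul, Finset.sum_const, Finset.card_univ, Fintype.card_fin,
    nsmul_eq_mul, hd, hcdef, _root_.one_div, inv_pow, mul_pow]
  field_simp
  ring

end Vale.Agent.P254.Sym
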