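import Vale.Agent.P254.Sym.Sel
import Vale.Agent.P254.Sym.Comb

/-! Lower bounds for the expected sum of the largest entries in a block. -/

open MeasureTheory Set Finset

namespace Vale.Agent.P254.Sym

/-- The arithmetic behind the choice of the parameters. -/
lemma tail_arith {κ y k N M : ℝ} (hN : 0 < N) (hM : 0 ≤ M) (hk : 0 ≤ k) (hy : y = 1 / N)
    (hy' : y ≤ 1 / 600) (hκ : κ = max (k / N) (1 / 600)) (hκ1 : κ ≤ 1) :
    99 / 100 * M * (k * (2 * N + 1 - k)) / N ≤
      k / (κ * N) * ((1 - (1 - κ + 1 / 360000) ^ 2) * (N * M) - 2 / 360000 * (N * M)) := by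
  have hκ0 : (1:ℝ) / 600 ≤ κ := hκ ▸ le_max_right _ _
  have hxk : k / N ≤ κ := hκ ▸ le_max_left _ _
  set x := k / N with hx
  have hx0 : 0 ≤ x := div_nonneg hk hN.le
  have e : k = x * N := by rw [hx]; field_simp
  have hrhs : k / (κ * N) * ((1 - (1 - κ + 1 / 360000) ^ 2) * (N * M) - 2 / 360000 * (N * M)) =
      k * M * ((1 - (1 - κ + 1 / 360000) ^ 2 - 2 / 360000) / κ) := by
    field_simp
  have hlhs : 99 / 100 * M * (k * (2 * N + 1 - k)) / N = k * M * (99 / 100 * (2 + y - x)) := by
    rw [hy, hx]; field_simp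
  rw [hrhs, hlhs]
  refine mul_le_mul_of_nonneg_left ?_ (mul_nonneg hk hM)
  rw [le_div_iff₀ (by linarith)]
  rcases max_choice (k / N) ((1:ℝ) / 600) with h | h <;> rw [h] at hκ
  · rw [← hx] at hκ; subst hκ
    have h1 : 0 ≤ (1 - x) * (x - 1 / 600) := mul_nonneg (by linarith) (by linarith)
    have h2 : 0 ≤ x * (1 / 600 - y) := mul_nonneg (by linarith) (by linarith)
    nlinarith
  · subst hκ; nlinarith

/-- A measurable minorant of the sum of the top entries of a block, with a large integral. -/
theorem exists_tail_minorant {n : ℕ} {R M : ℝ} {f : (Fin n → ℝ) → ℝ} (hf : DecDensity n R f)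
    {B : Finset (Fin n)} {N : ℕ} (hB : #B = N) (hN : (600:ℝ) ^ 8 ≤ N) (hf0 : 0 < ∫ w, f w)
    (hM0 : 0 < M) (hM : ∀ i ∈ B, ∫ w, f w * w i = M)
    (hQ : ∀ i ∈ B, (∫ w, f w * w i ^ 2) * (∫ w, f w) ≤ 2 * M ^ 2) (l : Fin N) :
    ∃ U : (Fin n → ℝ) → ℝ, Integrable (fun w => f w * U w) ∧
      (∀ w, f w ≠ 0 → ∀ e : Fin N ≃ B, Monotone (fun r => w (e r)) →
        U w ≤ tailSum (fun r => w (e r)) l) ∧
      99 / 100 * M * (((N - l : ℕ) : ℝ) * (2 * N + 1 - ((N - l : ℕ) : ℝ))) / N ≤
        ∫ w, f w * U w := by
  classical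
  have hNpos : (0:ℝ) < N := lt_of_lt_of_le (by norm_num) hN
  set k : ℝ := ((N - l : ℕ) : ℝ) with hk
  have hk0 : 0 ≤ k := Nat.cast_nonneg _
  have hkN : k ≤ N := Nat.cast_le.2 (Nat.sub_le _ _)
  set κ : ℝ := max (k / N) (1 / 600) with hκ
  have hκ0 : (1:ℝ) / 600 ≤ κ := le_max_right _ _
  have hκ1 : κ ≤ 1 := max_le ((div_le_one hNpos).2 hkN) (by norm_num)
  set a : ℝ := 1 - κ + 1 / 360000 with ha
  have hao : a ∈ Ioc (0:ℝ) 1 := ⟨by linarith, by linarith⟩
  obtain ⟨T, hTm, hT01, hTw, hTv⟩ := exists_sel hf hao B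
  set V := ∫ w, f w
  set P : Set (Fin n → ℝ) := {w | ∑ i ∈ B, T w i ≤ κ * N}
  have hPm : MeasurableSet P :=
    measurableSet_le (Finset.measurable_sum _ fun i _ => (measurable_pi_apply i).comp hTm)
      measurable_const
  set X : (Fin n → ℝ) → ℝ := fun w => ∑ i ∈ B, T w i * w i
  set S : (Fin n → ℝ) → ℝ := fun w => ∑ i ∈ B, (T w i - (1 - a))
  set U : (Fin n → ℝ) → ℝ := fun w => k / (κ * N) * P.indicator X w
  have hXm : Measurable X := Finset.measurable_sum _ fun i _ =>
    ((measurable_pi_apply i).comp hTm).mul (measurable_pi_apply i)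
  have hSm : Measurable S := Finset.measurable_sum _ fun i _ =>
    ((measurable_pi_apply i).comp hTm).sub_const _
  have hc0 : 0 ≤ k / (κ * N) := by positivity
  have hcoord : ∀ w, f w ≠ 0 → ∀ i, |w i| ≤ |R| := fun w hw i => by
    have := hf.supp w hw i
    rw [abs_of_nonneg this.1]; exact this.2.trans (le_abs_self R)
  have hXb : ∀ w, f w ≠ 0 → |X w| ≤ N * |R| := fun w hw => by
    refine (abs_sum_le_sum_abs _ _).trans (le_trans (sum_le_sum (g := fun _ => |R|) fun i _ => ?_)
      (by simp [hB]))
    rw [abs_mul, abs_of_nonneg (hT01 w i).1]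
    exact (mul_le_of_le_one_left (abs_nonneg _) (hT01 w i).2).trans (hcoord w hw i)
  have hUb : ∀ w, f w ≠ 0 → |U w| ≤ k / (κ * N) * (N * |R|) := fun w hw => by
    rw [abs_mul, abs_of_nonneg hc0]
    refine mul_le_mul_of_nonneg_left ?_ hc0
    by_cases h : w ∈ P
    · simpa [h] using hXb w hw
    · simp [h]; positivity
  have hUi := hf.intble (φ := U) ((hXm.indicator hPm).const_mul _) hUb
  refine ⟨U, hUi, fun w hw e he => ?_, ?_⟩
  · have hw0 : ∀ i, 0 ≤ w i := fun i => (hf.supp w hw i).1
    by_cases h : w ∈ P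
    · have hlam : k / (κ * N) ≤ 1 := by
        refine div_le_one_of_le₀ ?_ (by positivity)
        calc k = k / N * N := by field_simp
          _ ≤ κ * N := mul_le_mul_of_nonneg_right (le_max_left _ _) hNpos.le
      have hX : ∀ φ : Fin n → ℝ, ∑ i ∈ B, φ i = ∑ r, φ (e r) := fun φ => by
        rw [← Finset.sum_coe_sort B φ, ← e.sum_comp fun i : B => φ i]
      calc U w = ∑ r, (k / (κ * N) * T w (e r)) * w (e r) := by
            simp only [U, Set.indicator_of_mem h, X, hX, mul_sum, mul_assoc]
        _ ≤ _ := by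
            refine sum_mul_le_tailSum he (fun r => hw0 _) (fun r => ⟨mul_nonneg hc0 (hT01 _ _).1,
              mul_le_one₀ hlam (hT01 _ _).1 (hT01 _ _).2⟩) l ?_
            rw [← mul_sum, ← hX fun i => T w i]
            calc k / (κ * N) * ∑ i ∈ B, T w i ≤ k / (κ * N) * (κ * N) :=
                  mul_le_mul_of_nonneg_left h hc0
              _ = k := by field_simp
    · simp only [U, Set.indicator_of_notMem h, mul_zero]
      exact Finset.sum_nonneg fun r _ => hw0 _
  · -- bound for the bad event
    have hV0 : (0:ℝ) < V := hf0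
    set θ : ℝ := V / (360000 * M) with hθ
    have hθ0 : 0 < θ := by positivity
    set J : (Fin n → ℝ) → ℝ := fun w =>
      (∑ i ∈ B, θ / 2 * w i ^ 2) + (N:ℝ) / (2 * θ) * (360000 / N) ^ 2 * S w ^ 2
    have hpt : ∀ w, f w * X w ≤ f w * P.indicator X w + f w * J w := by
      intro w
      rcases eq_or_ne (f w) 0 with h0 | h0
      · simp [h0]
      rw [← mul_add]
      refine mul_le_mul_of_nonneg_left ?_ (hf.nonneg w)
      by_cases h : w ∈ P
      · simp only [Set.indicator_of_mem h, le_add_iff_nonneg_right, J]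
        positivity
      · simp only [Set.indicator_of_notMem h, zero_add]
        have h' : κ * N < ∑ i ∈ B, T w i := not_le.1 h
        have hS : (N:ℝ) / 360000 < S w := by
          simp only [S, sum_sub_distrib, sum_const, hB, nsmul_eq_mul, ha]
          linarith
        have hS2 : 1 ≤ (360000 / N) ^ 2 * S w ^ 2 := by
          rw [← mul_pow]; refine one_le_pow₀ ?_
          calc (1:ℝ) = 360000 / N * (N / 360000) := by field_simp
            _ ≤ _ := mul_le_mul_of_nonneg_left hS.le (by positivity)
        calc X w ≤ ∑ i ∈ B, (θ / 2 * w i ^ 2 + 1 / (2 * θ)) := by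
              refine sum_le_sum fun i _ => ?_
              have h1 : T w i * w i ≤ |w i| := by
                calc T w i * w i ≤ T w i * |w i| :=
                      mul_le_mul_of_nonneg_left (le_abs_self _) (hT01 w i).1
                  _ ≤ |w i| := mul_le_of_le_one_left (abs_nonneg _) (hT01 w i).2
              have h2 : |w i| ≤ θ / 2 * w i ^ 2 + 1 / (2 * θ) := by
                rw [← sq_abs (w i)]
                have := two_mul_le_add_sq (θ * |w i|) 1
                field_simp
                linarith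
              linarith
          _ = (∑ i ∈ B, θ / 2 * w i ^ 2) + N / (2 * θ) * 1 := by
              rw [sum_add_distrib, sum_const, hB, nsmul_eq_mul]; ring
          _ ≤ J w := by
              simp only [J, mul_assoc]
              have := mul_le_mul_of_nonneg_left hS2 (show (0:ℝ) ≤ N / (2 * θ) by positivity)
              linarith
    have iX := hf.intble (φ := X) hXm hXb
    have iP : Integrable fun w => f w * P.indicator X w := by
      refine hf.intble (φ := P.indicator X) (hXm.indicator hPm) (M := N * |R|) fun w hw => ?_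
      by_cases h : w ∈ P
      · simpa [h] using hXb w hw
      · simp [h]; positivity
    have iS : Integrable fun w => f w * S w ^ 2 := by
      refine hf.intble (φ := fun w => S w ^ 2) (hSm.pow_const 2) (M := (N:ℝ) ^ 2) fun w _ => ?_
      rw [abs_pow]
      refine pow_le_pow_left₀ (abs_nonneg _) ((abs_sum_le_sum_abs _ _).trans
        (le_trans (sum_le_sum (g := fun _ => (1:ℝ)) fun i _ => ?_) (by simp [hB]))) 2
      rw [abs_le]; constructor <;> linarith [hT01 w i, hao.1, hao.2]
    have iQ : ∀ i ∈ B, Integrable fun w => θ / 2 * (f w * w i ^ 2) := fun i _ =>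
      (hf.intble (φ := fun w => w i ^ 2) ((measurable_pi_apply i).pow_const 2) (M := |R| ^ 2)
        fun w hw => by rw [abs_pow]; exact pow_le_pow_left₀ (abs_nonneg _) (hcoord w hw i) 2).const_mul _
    set c : ℝ := (N:ℝ) / (2 * θ) * (360000 / N) ^ 2
    have hJ : ∀ w, f w * J w = (∑ i ∈ B, θ / 2 * (f w * w i ^ 2)) + c * (f w * S w ^ 2) :=
      fun w => by
        simp only [J, c, mul_add, mul_sum]
        refine congrArg₂ (· + ·) (sum_congr rfl fun i _ => by ring) (by ring)
    have iJ : Integrable fun w => f w * J w := by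
      simp only [hJ]
      exact (integrable_finsetSum _ iQ).fun_add (iS.const_mul c)
    have hJle : ∫ w, f w * J w ≤ 2 / 360000 * (N * M) := by
      simp only [hJ]
      rw [integral_add (integrable_finsetSum _ iQ) (iS.const_mul c), integral_finsetSum _ iQ,
        integral_const_mul]
      simp only [integral_const_mul]
      have t1 : ∀ i ∈ B, θ / 2 * ∫ w, f w * w i ^ 2 ≤ M / 360000 := fun i hi => by
        have := hQ i hi
        calc θ / 2 * ∫ w, f w * w i ^ 2 = ((∫ w, f w * w i ^ 2) * V) / (720000 * M) := by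
              rw [hθ]; field_simp; ring
          _ ≤ 2 * M ^ 2 / (720000 * M) := div_le_div_of_nonneg_right this (by positivity)
          _ = M / 360000 := by field_simp; ring
      have t2 : c * ∫ w, f w * S w ^ 2 ≤ M / 360000 * N := by
        have hc : 0 ≤ c := by positivity
        refine (mul_le_mul_of_nonneg_left hTv hc).trans ?_
        rw [hB]
        calc c * (N * V) = 360000 ^ 3 / 2 * M := by simp only [c, hθ]; field_simp
          _ ≤ M / 360000 * N := by
              have : (360000:ℝ) ^ 4 ≤ N := le_trans (by norm_num) hN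
              nlinarith
      have := sum_le_sum t1
      simp only [sum_const, hB, nsmul_eq_mul] at this
      linarith
    have hXint : ∫ w, f w * X w = (1 - a ^ 2) * (N * M) := by
      have e1 : ∀ w, f w * X w = ∑ i ∈ B, f w * (T w i * w i) := fun w => by simp [X, mul_sum]
      simp only [e1]
      rw [integral_finsetSum _ fun i _ => hf.intble (φ := fun w => T w i * w i)
        (((measurable_pi_apply i).comp hTm).mul (measurable_pi_apply i)) (M := |R|) fun w hw => by
          rw [abs_mul, abs_of_nonneg (hT01 w i).1]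
          exact (mul_le_of_le_one_left (abs_nonneg _) (hT01 w i).2).trans (hcoord w hw i)]
      rw [sum_congr rfl fun i hi => by rw [hTw i, hM i hi], sum_const, hB, nsmul_eq_mul]
      ring
    have hU : ∫ w, f w * U w = k / (κ * N) * ∫ w, f w * P.indicator X w := by
      rw [← integral_const_mul]; congr 1; ext w; simp only [U]; ring
    have hgood : (1 - a ^ 2) * (N * M) - 2 / 360000 * (N * M) ≤ ∫ w, f w * P.indicator X w := by
      have := integral_mono iX (iP.fun_add iJ) hpt
      rw [hXint, integral_add iP iJ] at this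
      linarith
    rw [hU]
    refine le_trans ?_ (mul_le_mul_of_nonneg_left hgood hc0)
    refine tail_arith (y := 1 / N) hNpos hM0.le hk0 rfl ?_ hκ hκ1
    exact one_div_le_one_div_of_le (by norm_num) (le_trans (by norm_num) hN)

end Vale.Agent.P254.Sym
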