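import Vale.Agent.P254.Sym.Body
import Vale.Agent.P254.Sym.Tail
import Vale.Agent.P254.Sym.Simplex

/-! Volume lower bound for block-symmetric unconditional bodies. -/

open MeasureTheory Set Finset

namespace Vale.Agent.P254.Sym

/-- An unconditional body invariant under the permutations preserving the labelling `b`. -/
structure BlockBody {n r : ℕ} (b : Fin n → Fin r) (K : Set (Fin n → ℝ)) : Prop extends Unc K where
  perm : ∀ π : Equiv.Perm (Fin n), (∀ i, b (π i) = b i) → ∀ x ∈ K, x ∘ π ∈ K

/-- The coordinates with label `c`. -/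
def block {n r : ℕ} (b : Fin n → Fin r) (c : Fin r) : Finset (Fin n) := {i | b i = c}

variable {n r : ℕ} {b : Fin n → Fin r} {K : Set (Fin n → ℝ)}

lemma mem_block {c : Fin r} {i : Fin n} : i ∈ block b c ↔ b i = c := by simp [block]

lemma BlockBody.moment_eq (h : BlockBody b K) {i j : Fin n} (hij : b i = b j) (p : ℕ) :
    ∫ x in K ∩ orth n, x i ^ p = ∫ x in K ∩ orth n, x j ^ p := by
  set π := Equiv.swap i j
  have hπ : ∀ l, b (π l) = b l := fun l => by
    by_cases h1 : l = i
    · subst h1; simp [π, hij]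
    by_cases h2 : l = j
    · subst h2; simp [π, hij]
    · simp [π, Equiv.swap_apply_of_ne_of_ne h1 h2]
  have hinv : ∀ x : Fin n → ℝ, (x ∘ π) ∘ π = x := fun x => by
    funext l; simp [π]
  have hA : ∀ x, x ∘ π ∈ K ∩ orth n ↔ x ∈ K ∩ orth n := fun x =>
    ⟨fun hx => hinv x ▸ ⟨h.perm π hπ _ hx.1, fun l => hx.2 (π l)⟩,
     fun hx => ⟨h.perm π hπ _ hx.1, fun l => hx.2 (π l)⟩⟩
  rw [← setIntegral_perm π hA fun x => x i ^ p]
  simp [π]

/-- Sort a vector on a finite set of indices. -/
lemma exists_sort {N : ℕ} {B : Finset (Fin n)} (hB : #B = N) (v : Fin n → ℝ) :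
    ∃ e : Fin N ≃ B, Monotone fun r => v (e r) := by
  set e₀ : Fin N ≃ B := (B.equivFinOfCardEq hB).symm
  exact ⟨(Tuple.sort fun r => v (e₀ r)).trans e₀, Tuple.monotone_sort fun r => v (e₀ r)⟩

lemma scale_aux {V M N S T : ℝ} (hV : 0 < V) (hN : 0 ≤ N) (hM : 0 ≤ M) (hS : 2 * S ≤ T) :
    V * (2 * (99 / 100) * M / V / N * S) ≤ 99 / 100 * M * T / N := by
  have e : V * (2 * (99 / 100) * M / V / N * S) = 99 / 100 * M / N * (2 * S) := by
    field_simp
  rw [e, show 99 / 100 * M * T / N = 99 / 100 * M / N * T by ring]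
  exact mul_le_mul_of_nonneg_left hS (by positivity)

/-- The main containment: good grid points lie in the body. -/
theorem BlockBody.grid_mem (h : BlockBody b K)
    (hN : ∀ c, (600:ℝ) ^ 8 ≤ #(block b c)) (g : (i : Fin n) → Fin #(block b (b i)))
    (hg : ∀ c, ∀ m < #(block b c), #{i ∈ block b c | m ≤ (g i : ℕ)} + m ≤ #(block b c)) :
    (fun i => 2 * (99 / 100) * (∫ x in K ∩ orth n, x i) / (volume (K ∩ orth n)).toReal /
      #(block b (b i)) * ((g i : ℕ) + 1)) ∈ K := by
  classical
  set A := K ∩ orth n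
  set V := (volume A).toReal with hV
  have hV0 : 0 < V := h.volA_pos
  set f : (Fin n → ℝ) → ℝ := A.indicator fun _ => 1
  obtain ⟨R, hf⟩ := h.dec
  have hfint : ∀ φ : (Fin n → ℝ) → ℝ, ∫ w, f w * φ w = ∫ w in A, φ w := fun φ => by
    rw [← integral_indicator h.measA]
    congr 1; ext w
    by_cases hw : w ∈ A
    · rw [Set.indicator_of_mem (show w ∈ K ∩ orth n from hw)]
      simp only [f, Set.indicator_of_mem hw, one_mul]
    · rw [Set.indicator_of_notMem (show w ∉ K ∩ orth n from hw)]
      simp only [f, Set.indicator_of_notMem hw, zero_mul]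
  have hf1 : ∫ w, f w = V := by
    have := hfint fun _ => 1
    simpa [measureReal_def, hV] using this
  set x : Fin n → ℝ := fun i =>
    2 * (99 / 100) * (∫ z in A, z i) / V / #(block b (b i)) * ((g i : ℕ) + 1)
  have hx0 : ∀ i, 0 ≤ x i := fun i => by
    have := (h.coord_pos i).le
    positivity
  by_contra hx
  obtain ⟨L, u, hLK, hLx⟩ := geometric_hahn_banach_closed_point h.conv h.cpt.isClosed hx
  set y : Fin n → ℝ := fun i => |L (Pi.single i 1)|
  have hL : ∀ z : Fin n → ℝ, L z = ∑ i, L (Pi.single i 1) * z i := fun z => by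
    conv_lhs => rw [← Finset.univ_sum_single z]
    rw [map_sum]
    refine sum_congr rfl fun i _ => ?_
    rw [show Pi.single i (z i) = z i • Pi.single i (1:ℝ) by
      ext j; by_cases hj : j = i <;> simp [hj], map_smul, smul_eq_mul, mul_comm]
  have hyA : ∀ z ∈ A, ∑ i, y i * z i < u := by
    intro z hz
    set z' : Fin n → ℝ := fun i => if 0 ≤ L (Pi.single i 1) then z i else -z i
    have hz' : z' ∈ K := h.sign z hz.1 z' fun i => by simp only [z']; split_ifs <;> simp
    refine lt_of_le_of_lt (le_of_eq ?_) (hLK z' hz')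
    rw [hL]
    refine sum_congr rfl fun i _ => ?_
    simp only [y, z']
    split_ifs with hs
    · rw [abs_of_nonneg hs]
    · rw [abs_of_neg (not_le.1 hs)]; ring
  have hyx : u < ∑ i, y i * x i :=
    hLx.trans_le ((hL x).le.trans (sum_le_sum fun i _ =>
      mul_le_mul_of_nonneg_right (le_abs_self _) (hx0 i)))
  -- per block data
  choose e he using fun c => exists_sort (B := block b c) rfl y
  choose Δ hΔ0 hΔ using fun c => exists_abel (he c) fun r => abs_nonneg _
  have hblock : ∀ c, ∀ i ∈ block b c, ∀ j ∈ block b c, b i = b j := fun c i hi j hj =>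
    (mem_block.1 hi).trans (mem_block.1 hj).symm
  have hU : ∀ (c : Fin r) (l : Fin #(block b c)), ∃ U : (Fin n → ℝ) → ℝ,
      Integrable (fun w => f w * U w) ∧
      (∀ w, f w ≠ 0 → ∀ e' : Fin #(block b c) ≃ block b c, Monotone (fun r => w (e' r)) →
        U w ≤ tailSum (fun r => w (e' r)) l) ∧
      V * tailSum (fun r => x (e c r)) l ≤ ∫ w, f w * U w := by
    intro c l
    set i₀ : Fin n := (e c l : Fin n)
    have hi₀ := (e c l).2
    set M := ∫ z in A, z i₀
    have hMe : ∀ i ∈ block b c, ∫ z in A, z i = M := fun i hi => by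
      simpa using h.moment_eq (hblock c i hi _ hi₀) 1
    obtain ⟨U, hUi, hUle, hUint⟩ := exists_tail_minorant hf (B := block b c) rfl (hN c)
      (by rw [hf1]; exact hV0) (h.coord_pos i₀) (fun i hi => by rw [hfint]; exact hMe i hi)
      (fun i hi => by
        rw [hfint, hf1]
        exact (h.sq_moment i).trans_eq
          (congrArg (fun t : ℝ => 2 * t ^ 2) ((hMe i hi).trans (hMe i₀ hi₀).symm))) l
    refine ⟨U, hUi, hUle, le_trans ?_ hUint⟩
    set S : Finset (Fin n) := (Finset.Ici l).map ((e c).toEmbedding.trans (Function.Embedding.subtype _))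
    have hS : S ⊆ block b c := fun i hi => by
      obtain ⟨m, -, rfl⟩ := Finset.mem_map.1 hi
      exact (e c m).2
    have hScard : #S = #(block b c) - l := by rw [Finset.card_map, Fin.card_Ici]
    have hblk : ∀ i ∈ block b c, #(block b (b i)) = #(block b c) := fun i hi => by rw [mem_block.1 hi]
    have hNp : 0 < #(block b c) := l.pos
    set g' : Fin n → Fin #(block b c) := fun i =>
      if hi : i ∈ block b c then Fin.cast (hblk i hi) (g i) else ⟨0, hNp⟩
    have hgood : GoodOn (block b c) g' := fun m hm => by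
      refine le_of_eq_of_le ?_ (hg c m hm)
      congr 2
      exact filter_congr fun i hi => by simp [g', hi]
    have hsum := hgood.sum_le rfl hS
    rw [hScard] at hsum
    have hts : tailSum (fun r => x (e c r)) l =
        2 * (99 / 100) * M / V / #(block b c) * ∑ i ∈ S, (((g' i : ℕ) : ℝ) + 1) := by
      rw [mul_sum]
      calc tailSum (fun r => x (e c r)) l = ∑ i ∈ S, x i := by
            rw [tailSum, Finset.sum_map]; rfl
        _ = _ := by
            refine sum_congr rfl fun i hi => ?_
            have hi' := hS hi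
            change 2 * (99 / 100) * (∫ z in A, z i) / V / (#(block b (b i)) : ℝ) * ((g i : ℕ) + 1) = _
            have e2 : ((#(block b (b i)) : ℕ) : ℝ) = #(block b c) := congrArg Nat.cast (hblk i hi')
            rw [e2, hMe i hi']
            simp only [g', dif_pos hi', Fin.val_cast]
    rw [hts]
    have hM0 : 0 ≤ M := (h.coord_pos i₀).le
    exact scale_aux hV0 (Nat.cast_nonneg _) hM0 hsum
  choose U hUi hUle hUint using hU
  set Z : (Fin n → ℝ) → ℝ := fun w => ∑ c, ∑ l, Δ c l * U c l w
  have hfib : ∀ φ : Fin n → ℝ, ∑ i, φ i = ∑ c, ∑ r, φ (e c r) := fun φ => by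
    rw [← Finset.sum_fiberwise univ b φ]
    refine sum_congr rfl fun c _ => ?_
    rw [show ({i | b i = c} : Finset (Fin n)) = block b c from rfl, ← Finset.sum_coe_sort]
    exact ((e c).sum_comp fun i : block b c => φ i).symm
  have hZ : ∀ w, f w * Z w ≤ f w * u := by
    intro w
    rcases eq_or_ne (f w) 0 with h0 | h0
    · simp [h0]
    refine mul_le_mul_of_nonneg_left ?_ (hf.nonneg w)
    have hw : w ∈ A := Set.mem_of_indicator_ne_zero h0
    choose e' he' using fun c => exists_sort (B := block b c) rfl w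
    set π₀ : Fin n → Fin n := fun i => (e' (b i) ((e (b i)).symm ⟨i, mem_block.2 rfl⟩) : Fin n)
    have hπb : ∀ i, b (π₀ i) = b i := fun i =>
      mem_block.1 (e' (b i) ((e (b i)).symm ⟨i, mem_block.2 rfl⟩)).2
    have hπ : ∀ c (m : Fin #(block b c)), π₀ (e c m) = e' c m := by
      intro c m
      have hc : b (e c m : Fin n) = c := mem_block.1 (e c m).2
      simp only [π₀]
      generalize hm : (e c m : Fin n) = i at hc
      subst hc
      congr
      rw [Equiv.symm_apply_eq]
      exact Subtype.ext hm.symm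
    have hinj : Function.Injective π₀ := by
      intro i j hij
      have hbij : b i = b j := by rw [← hπb i, hij, hπb j]
      set a := (e (b i)).symm ⟨i, mem_block.2 rfl⟩
      set a' := (e (b i)).symm ⟨j, mem_block.2 hbij.symm⟩
      have hi : (e (b i) a : Fin n) = i := by simp [a]
      have hj : (e (b i) a' : Fin n) = j := by simp [a']
      rw [← hi, ← hj, hπ, hπ] at hij
      have := (e' (b i)).injective (Subtype.ext hij)
      rw [← hi, ← hj, this]
    set π : Equiv.Perm (Fin n) := Equiv.ofBijective π₀ (Finite.injective_iff_bijective.1 hinj)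
    have hmem : w ∘ π ∈ A :=
      ⟨h.perm π (fun i => by simpa [π] using hπb i) w hw.1, fun i => hw.2 _⟩
    refine le_trans ?_ (hyA _ hmem).le
    rw [hfib fun i => y i * (w ∘ π) i]
    refine sum_le_sum fun c _ => ?_
    have e1 : ∀ m, (w ∘ π) (e c m) = w (e' c m) := fun m => by simp [π, hπ]
    simp only [e1]
    rw [hΔ c fun m => w (e' c m)]
    exact sum_le_sum fun l _ =>
      mul_le_mul_of_nonneg_left (hUle c l w h0 (e' c) (he' c)) (hΔ0 c l)
  have iU : ∀ c l, Integrable fun w => Δ c l * (f w * U c l w) := fun c l =>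
    (hUi c l).const_mul _
  have hZe : ∀ w, f w * Z w = ∑ c, ∑ l, Δ c l * (f w * U c l w) := fun w => by
    simp only [Z, mul_sum]
    exact sum_congr rfl fun c _ => sum_congr rfl fun l _ => by ring
  have iZ : Integrable fun w => f w * Z w := by
    simp only [hZe]
    exact integrable_finsetSum _ fun c _ => integrable_finsetSum _ fun l _ => iU c l
  have iu : Integrable fun w => f w * u := hf.intble (φ := fun _ => u) measurable_const
    (M := |u|) fun _ _ => le_rfl
  have h1 := integral_mono iZ iu hZ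
  rw [integral_mul_const, hf1] at h1
  have h2 : V * ∑ i, y i * x i ≤ ∫ w, f w * Z w := by
    simp only [hZe]
    rw [integral_finsetSum _ fun c _ => integrable_finsetSum _ fun l _ => iU c l, hfib, mul_sum]
    refine sum_le_sum fun c _ => ?_
    rw [hΔ c fun m => x (e c m), integral_finsetSum _ fun l _ => iU c l, mul_sum]
    refine sum_le_sum fun l _ => ?_
    rw [integral_const_mul, mul_left_comm]
    exact mul_le_mul_of_nonneg_left (hUint c l) (hΔ0 c l)
  nlinarith

/-- The volume bound. -/
theorem BlockBody.volume_lower (h : BlockBody b K) (hN : ∀ c, (600:ℝ) ^ 8 ≤ #(block b c)) :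
    ∏ i, (2 * (99 / 100) * (∫ x in K ∩ orth n, x i) / (volume (K ∩ orth n)).toReal) ≤
      (∏ c, (#(block b c) : ℝ)) * (volume (K ∩ orth n)).toReal := by
  classical
  set A := K ∩ orth n with hA
  set V := (volume A).toReal
  set R : Fin n → ℝ := fun i => 2 * (99 / 100) * (∫ x in A, x i) / V
  set N : Fin r → ℕ := fun c => #(block b c)
  have hN0 : ∀ c, 0 < N c := fun c => by
    have : (0:ℝ) < N c := lt_of_lt_of_le (by norm_num) (hN c)
    exact_mod_cast this
  have : ∀ c, NeZero (N c) := fun c => ⟨(hN0 c).ne'⟩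
  have hR : ∀ i, 0 < R i := fun i => by
    have h1 := h.coord_pos i
    have h2 : 0 < V := h.volA_pos
    positivity
  set P : Finset ((i : Fin n) → Fin (N (b i))) :=
    {g | ∀ c, ∀ m < N c, #{i ∈ block b c | m ≤ (g i : ℕ)} + m ≤ N c}
  -- counting
  have hcount : (∏ i, N (b i)) ≤ #P * ∏ c, N c := by
    have h1 : Fintype.card ((i : Fin n) → Fin (N (b i))) = ∏ i, N (b i) := by simp
    have h2 : Fintype.card ({g // g ∈ P} × ((c : Fin r) → Fin (N c))) = #P * ∏ c, N c := by simp
    rw [← h1, ← h2]
    refine Fintype.card_le_of_surjective (fun q i => q.1.1 i + q.2 (b i)) fun g => ?_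
    set g' : ∀ c, Fin n → Fin (N c) := fun c i =>
      if hi : b i = c then Fin.cast (congrArg N hi) (g i) else 0
    choose s hs using fun c => exists_rotation (block b c) (N := N c) rfl (g' c)
    refine ⟨(⟨fun i => g i - s (b i), ?_⟩, s), ?_⟩
    · simp only [P, Finset.mem_filter, Finset.mem_univ, true_and]
      intro c m hm
      refine le_of_eq_of_le ?_ (hs c m hm)
      congr 2
      refine filter_congr fun i hi => ?_
      obtain rfl := mem_block.1 hi
      simp [g']
    · funext i; simp
  -- boxes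
  set box : ((i : Fin n) → Fin (N (b i))) → Set (Fin n → ℝ) := fun g =>
    Set.pi Set.univ fun i => Set.Ico (R i / N (b i) * (g i : ℕ)) (R i / N (b i) * ((g i : ℕ) + 1))
  have hsc : ∀ i, 0 < R i / N (b i) := fun i => div_pos (hR i) (Nat.cast_pos.2 (hN0 _))
  have hsub : ∀ g ∈ P, box g ⊆ A := by
    intro g hg z hz
    have hx := h.grid_mem hN g (Finset.mem_filter.1 hg).2
    have hz' := fun i => hz i (Set.mem_univ i)
    have hz0 : ∀ i, 0 ≤ z i := fun i =>
      (mul_nonneg (hsc i).le (Nat.cast_nonneg _)).trans (hz' i).1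
    refine ⟨h.down hx fun i => ?_, hz0⟩
    rw [abs_of_nonneg (hz0 i)]
    exact (hz' i).2.le.trans (le_abs_self _)
  have hdisj : (P : Set ((i : Fin n) → Fin (N (b i)))).PairwiseDisjoint box := by
    intro g _ g' _ hne
    obtain ⟨i, hi⟩ := Function.ne_iff.1 hne
    rw [Function.onFun, Set.disjoint_left]
    intro z hz hz'
    have a := hz i (Set.mem_univ i)
    have a' := hz' i (Set.mem_univ i)
    simp only [Set.mem_Ico] at a a'
    refine hi (Fin.ext ?_)
    have b1 : ((g i : ℕ) : ℝ) < (g' i : ℕ) + 1 := (mul_lt_mul_iff_right₀ (hsc i)).1 (a.1.trans_lt a'.2)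
    have b2 : ((g' i : ℕ) : ℝ) < (g i : ℕ) + 1 := (mul_lt_mul_iff_right₀ (hsc i)).1 (a'.1.trans_lt a.2)
    have c1 : (g i : ℕ) < (g' i : ℕ) + 1 := by exact_mod_cast b1
    have c2 : (g' i : ℕ) < (g i : ℕ) + 1 := by exact_mod_cast b2
    omega
  have hbox : ∀ g, volume (box g) = ENNReal.ofReal (∏ i, R i / N (b i)) := fun g => by
    rw [volume_pi_pi, ENNReal.ofReal_prod_of_nonneg fun i _ => (hsc i).le]
    refine prod_congr rfl fun i _ => ?_
    rw [Real.volume_Ico]; congr 1; ring
  have hvol : (#P : ℝ) * ∏ i, R i / N (b i) ≤ V := by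
    have h1 : volume (⋃ g ∈ P, box g) ≤ volume A := measure_mono (Set.iUnion₂_subset hsub)
    rw [measure_biUnion_finset hdisj fun g _ =>
      MeasurableSet.univ_pi fun i => measurableSet_Ico] at h1
    simp only [hbox, sum_const, nsmul_eq_mul] at h1
    have hfin : volume A ≠ ⊤ :=
      ((measure_mono Set.inter_subset_left).trans_lt h.cpt.measure_lt_top).ne
    have := ENNReal.toReal_mono hfin h1
    rwa [ENNReal.toReal_mul, ENNReal.toReal_natCast,
      ENNReal.toReal_ofReal (prod_nonneg fun i _ => (hsc i).le)] at this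
  have hcR : (∏ i, (N (b i) : ℝ)) ≤ #P * ∏ c, (N c : ℝ) := by exact_mod_cast hcount
  have hPi : (0:ℝ) ≤ ∏ i, R i / N (b i) := prod_nonneg fun i _ => (hsc i).le
  calc ∏ i, R i = (∏ i, (N (b i) : ℝ)) * ∏ i, R i / N (b i) := by
        rw [← prod_mul_distrib]
        refine prod_congr rfl fun i _ => ?_
        have : (N (b i) : ℝ) ≠ 0 := Nat.cast_ne_zero.2 (hN0 _).ne'
        field_simp
    _ ≤ (#P * ∏ c, (N c : ℝ)) * ∏ i, R i / N (b i) := mul_le_mul_of_nonneg_right hcR hPi
    _ = (∏ c, (N c : ℝ)) * (#P * ∏ i, R i / N (b i)) := by ring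
    _ ≤ (∏ c, (N c : ℝ)) * V := mul_le_mul_of_nonneg_left hvol (prod_nonneg fun c _ => Nat.cast_nonneg _)

end Vale.Agent.P254.Sym
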